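import Vale.Agent.P101.Main

/-!
# P095: the statement, `Z(2,3)` in the fixed points of the central sequence algebra
-/

open scoped BoundedContinuousFunction
open Filter Topology

namespace Vale.P095

/-- An element of the ultrapower is fixed by the map `h` applied termwise. -/
def SeqFixed {A : Type*} [CStarAlgebra A] (ω : Ultrafilter ℕ) (h : A → A)
    (x : P101.Ultrapower A ω) : Prop :=
  ∀ f : ℕ →ᵇ A, P101.cls ω f = x → Tendsto (fun n => ‖h (f n) - f n‖) ω (𝓝 0)

/-- An element of `F_ω(A)` as an element of the ultrapower `A_ω`. -/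
def toUltrapower {A : Type*} [CStarAlgebra A] (ω : Ultrafilter ℕ) (x : P101.FOmega A ω) :
    P101.Ultrapower A ω :=
  Subtype.val x

/-- A closed unital star subalgebra of `E` whose elements satisfy `P` receives `Z(2,3)` unitally,
i.e. there is a unital star homomorphism from `Z(2,3)` to `E` all whose values satisfy `P`. -/
def HasDimDropHomInto (E : Type*) [CStarAlgebra E] (P : E → Prop) : Prop :=
  ∃ (S : StarSubalgebra ℂ E) (_ : IsClosed (S : Set E)), (∀ x ∈ S, P x) ∧
    P101.HasDimDropHom S

/-- A unital star homomorphism from `Z(2,3)` to `F_ω(A)` all whose values are fixed by every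
map `act g` applied termwise. -/
def HasFixedDimDropHom {A : Type*} [CStarAlgebra A] (ω : Ultrafilter ℕ) {G : Type}
    (act : G → A → A) : Prop :=
  HasDimDropHomInto (P101.FOmega A ω) fun x => ∀ g : G, SeqFixed ω (act g) (toUltrapower ω x)

end Vale.P095
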