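import Vale.Agent.P095.Finite.Core
import Vale.Agent.P095.Tracial.Reindex
import Vale.Agent.P101.Main

/-!
# P095: the fixed points of a finite group action with equivariant copies have no characters
-/

namespace Vale.P095

open Vale.P101

noncomputable section

variable {F : Type*} [CStarAlgebra F] {G : Type} [Group G] {β : G → F →⋆ₐ[ℂ] F}

/-- The fixed points of a family of star homomorphisms. -/
def fixedAlg (β : G → F →⋆ₐ[ℂ] F) : StarSubalgebra ℂ F where
  carrier := {x | ∀ g, β g x = x}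
  mul_mem' {x y} hx hy g := by rw [map_mul, hx g, hy g]
  add_mem' {x y} hx hy g := by rw [map_add, hx g, hy g]
  algebraMap_mem' c g := AlgHomClass.commutes (β g) c
  star_mem' {x} hx g := by rw [map_star, hx g]

instance : IsClosed (fixedAlg β : Set F) := by
  have : (fixedAlg β : Set F) = ⋂ g, {x | β g x = x} := by ext x; simp [fixedAlg]
  rw [this]
  exact isClosed_iInter fun g => isClosed_eq
    (AddMonoidHomClass.continuous_of_bound (β g) 1 fun x => by
      rw [one_mul]; exact NonUnitalStarAlgHom.norm_apply_le (β g) x) continuous_id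

noncomputable instance : CStarAlgebra (fixedAlg β) := StarSubalgebra.cstarAlgebra _

variable [Finite G]

theorem copyProp_fixedAlg (hc : EqCopyProp β) : CopyProp (fixedAlg β) := by
  intro s t hs ht
  let ι₀ := (fixedAlg β).subtype
  obtain ⟨ρ, hρt, -, hρe⟩ := hc (ι₀ '' s) (ι₀ '' t) (hs.image _).countable (ht.image _).countable
    (by rintro g _ ⟨x, hx, rfl⟩; exact ⟨x, hx, (x.2 g).symm⟩)
  have hgen : ∀ b : gen s, ι₀ (b : fixedAlg β) ∈ gen (ι₀ '' s) := fun b => by
    have : ι₀ (b : fixedAlg β) ∈ (gen s).map ι₀ := ⟨b, b.2, rfl⟩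
    rwa [StarAlgHom.map_adjoin] at this
  let ι : gen s →⋆ₐ[ℂ] gen (ι₀ '' s) := (ι₀.comp (gen s).subtype).codRestrict _ hgen
  let σ : gen s →⋆ₐ[ℂ] fixedAlg β := (ρ.comp ι).codRestrict (fixedAlg β) fun b g =>
    (hρe g (ι b) (ι b) (((b : fixedAlg β).2 g).symm)).symm
  exact ⟨σ, fun b c hc' => Subtype.ext (hρt (ι b) _ ⟨c, hc', rfl⟩).eq⟩

theorem full_fixedAlg (h1 : ∀ x, β 1 x = x) (hmul : ∀ g h x, β (g * h) x = β g (β h x))
    (hc : EqCopyProp β) (hF : Full (commSet F)) : Full (commSet (fixedAlg β)) := by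
  have := Fintype.ofFinite G
  refine full_commSet ⟨fun χ => ?_⟩
  let avg : F →ₗ[ℂ] fixedAlg β :=
    { toFun := fun f => ⟨(Fintype.card G : ℂ)⁻¹ • ∑ g, β g f, fun h => by
        rw [map_smul, map_sum]
        congr 1
        exact Fintype.sum_equiv (Equiv.mulLeft h) _ _ fun g => (hmul h g _).symm⟩
      map_add' := fun f f' => Subtype.ext (by simp [Finset.sum_add_distrib])
      map_smul' := fun c f => Subtype.ext (by simp [← Finset.smul_sum, smul_comm c]) }
  have havg : ∀ e : F, (∀ g, β g e = e) → (avg e : F) = e := fun e he => by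
    show (Fintype.card G : ℂ)⁻¹ • ∑ g, β g e = _
    simp only [he, Finset.sum_const, Finset.card_univ, ← Nat.cast_smul_eq_nsmul ℂ, smul_smul]
    rw [inv_mul_cancel₀ (Nat.cast_ne_zero.2 Fintype.card_ne_zero), one_smul]
  refine not_multiplicative_fixed (β := β) h1 hmul
    (fun s t hs ht hst => hc s t hs.countable ht.countable hst) hF
    (ψ := χ.toAlgHom.toLinearMap.comp avg) ?_ (fun f => ?_) (fun e he f => ?_)
  · show χ (avg 1) = 1
    rw [show avg 1 = 1 from Subtype.ext (havg 1 fun g => map_one _), map_one]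
  · refine (NonUnitalStarAlgHom.norm_apply_le χ (avg f)).trans ?_
    show ‖(Fintype.card G : ℂ)⁻¹ • ∑ g, β g f‖ ≤ ‖f‖
    rw [norm_smul, norm_inv, Complex.norm_natCast,
      inv_mul_le_iff₀ (Nat.cast_pos.2 Fintype.card_pos)]
    refine (norm_sum_le _ _).trans ((Finset.sum_le_sum (g := fun _ => ‖f‖)
      fun g _ => NonUnitalStarAlgHom.norm_apply_le (β g) _).trans_eq (by simp))
  · show χ (avg (e * f)) = χ (avg e) * χ (avg f)
    rw [← map_mul]
    refine congrArg χ (Subtype.ext ?_)
    show (Fintype.card G : ℂ)⁻¹ • ∑ g, β g (e * f) =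
      (avg e : F) * ((Fintype.card G : ℂ)⁻¹ • ∑ g, β g f)
    rw [havg e he, mul_smul_comm, Finset.mul_sum]
    congr 1
    exact Finset.sum_congr rfl fun g _ => by rw [map_mul, he]

/-- The relations of `Z(2,3)` are solvable among the fixed points. -/
theorem exists_relations_fixedAlg (h1 : ∀ x, β 1 x = x)
    (hmul : ∀ g h x, β (g * h) x = β g (β h x)) (hc : EqCopyProp β) (hF : Full (commSet F)) :
    ∃ x v : F, (∀ g, β g x = x) ∧ (∀ g, β g v = v) ∧ x * x = 0 ∧
      star v * v = 1 - (star x * x + x * star x) ∧ x * star x * v = v := by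
  obtain ⟨x, v, e1, e2, e3⟩ :=
    exists_relations (copyProp_fixedAlg hc) (full_fixedAlg h1 hmul hc hF)
  exact ⟨x, v, x.2, v.2, congrArg Subtype.val e1, congrArg Subtype.val e2, congrArg Subtype.val e3⟩

end

end Vale.P095
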