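import Vale.Agent.P095.Finite.Core
import Vale.Agent.P095.Finite.Copies
import Vale.Agent.P095.Finite.Statement

/-!
# P095: equivariant `Z(2,3)` for locally finite groups

If `F_ω(A)` has no characters, neither has `F_ω(A)^α` for a finite group, so `Z(2,3)` maps unitally
into it; an `ε`-test along an exhaustion by finite subgroups gives the locally finite case.
-/

open scoped BoundedContinuousFunction
open Filter Topology

namespace Vale.P095

open Vale.P101

noncomputable section

section Finite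

variable {A : Type*} [CStarAlgebra A] [TopologicalSpace.SeparableSpace A] (ω : Ultrafilter ℕ)
  {G : Type} [Group G] (α : G →* (A ≃⋆ₐ[ℂ] A))

/-- The inclusion of the fixed points. -/
def fixIncl : Fixed ω α →⋆ₐ[ℂ] Central A ω :=
  (Fixed ω α).subtype.codRestrict (Central A ω) fun x => x.2.1

theorem copyProp_fixed [Finite G] (hω : (ω : Filter ℕ) ≤ cofinite) : CopyProp (Fixed ω α) := by
  intro s t hs ht
  have hfix : ∀ g (x : Fixed ω α), actC ω α g (fixIncl ω α x) = fixIncl ω α x :=
    fun g x => Subtype.ext (x.2.2 g)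
  obtain ⟨ρ, hρt, -, hρe⟩ := exists_equivariant_copy α hω (hs.image (fixIncl ω α))
    (ht.image (fixIncl ω α)) (by rintro g _ ⟨x, hx, rfl⟩; exact ⟨x, hx, (hfix g x).symm⟩)
  have hgen : ∀ b : gen s, fixIncl ω α (b : Fixed ω α) ∈ gen (fixIncl ω α '' s) := fun b => by
    have : fixIncl ω α (b : Fixed ω α) ∈ (gen s).map (fixIncl ω α) := ⟨b, b.2, rfl⟩
    rwa [StarAlgHom.map_adjoin] at this
  let ι : gen s →⋆ₐ[ℂ] gen (fixIncl ω α '' s) :=
    ((fixIncl ω α).comp (gen s).subtype).codRestrict _ hgen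
  let σ : gen s →⋆ₐ[ℂ] Fixed ω α :=
    ((Central A ω).subtype.comp (ρ.comp ι)).codRestrict (Fixed ω α) fun b =>
      ⟨(ρ (ι b)).2, fun g => congrArg Subtype.val (hρe g (ι b) (ι b) (hfix g b).symm).symm⟩
  refine ⟨σ, fun b c hc => Subtype.ext ?_⟩
  exact (congrArg Subtype.val (hρt (ι b) _ ⟨c, hc, rfl⟩).eq : _)

theorem full_fixed [Finite G] (hω : (ω : Filter ℕ) ≤ cofinite)
    (hchar : NoCharacters (FOmega A ω)) : Full (commSet (Fixed ω α)) := by
  have := Fintype.ofFinite G
  refine full_commSet ⟨fun χ => ?_⟩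
  have hfullF : Full (commSet (Central A ω)) := by
    refine full_commSet ⟨fun χ' => ?_⟩
    have := congrArg (fun f : FOmega A ω →⋆ₙₐ[ℂ] ℂ => f 1) (hchar χ'.toNonUnitalStarAlgHom)
    exact one_ne_zero ((map_one χ').symm.trans this)
  let avg : Central A ω →ₗ[ℂ] Fixed ω α :=
    { toFun := fun f => ⟨(Fintype.card G : ℂ)⁻¹ • ∑ g, actU ω α g (f : Ultrapower A ω),
        SMulMemClass.smul_mem _ (sum_mem fun g _ => actU_mem_central ω α g f.2), fun h => by
          rw [map_smul, map_sum]
          congr 1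
          exact Fintype.sum_equiv (Equiv.mulLeft h) _ _ fun g => (actU_mul ω α h g _).symm⟩
      map_add' := fun f f' => Subtype.ext (by simp [Finset.sum_add_distrib])
      map_smul' := fun c f => Subtype.ext (by simp [← Finset.smul_sum, smul_comm c]) }
  have havg : ∀ (e : Central A ω), (∀ g, actC ω α g e = e) →
      (avg e : Ultrapower A ω) = (e : Ultrapower A ω) := fun e he => by
    show (Fintype.card G : ℂ)⁻¹ • ∑ g, actU ω α g (e : Ultrapower A ω) = _
    simp only [← actC_val, he, Finset.sum_const, Finset.card_univ, ← Nat.cast_smul_eq_nsmul ℂ,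
      smul_smul]
    rw [inv_mul_cancel₀ (Nat.cast_ne_zero.2 Fintype.card_ne_zero), one_smul]
  refine not_multiplicative_fixed (F := Central A ω) (β := actC ω α) (actC_one ω α) (actC_mul ω α)
    (fun s t hs ht hst => exists_equivariant_copy α hω hs ht hst) hfullF
    (ψ := χ.toAlgHom.toLinearMap.comp avg) ?_ (fun f => ?_) (fun e he f => ?_)
  · show χ (avg 1) = 1
    rw [show avg 1 = 1 from Subtype.ext (havg 1 fun g => map_one _), map_one]
  · refine (NonUnitalStarAlgHom.norm_apply_le χ (avg f)).trans ?_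
    show ‖(Fintype.card G : ℂ)⁻¹ • ∑ g, actU ω α g (f : Ultrapower A ω)‖ ≤ ‖f‖
    rw [norm_smul, norm_inv, Complex.norm_natCast,
      inv_mul_le_iff₀ (Nat.cast_pos.2 Fintype.card_pos)]
    refine (norm_sum_le _ _).trans ((Finset.sum_le_sum (g := fun _ => ‖f‖)
      fun g _ => NonUnitalStarAlgHom.norm_apply_le (actU ω α g) _).trans_eq (by simp))
  · show χ (avg (e * f)) = χ (avg e) * χ (avg f)
    rw [← map_mul]
    refine congrArg χ (Subtype.ext ?_)
    show (Fintype.card G : ℂ)⁻¹ • ∑ g, actU ω α g ((e : Ultrapower A ω) * (f : Ultrapower A ω)) =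
      (avg e : Ultrapower A ω) *
        ((Fintype.card G : ℂ)⁻¹ • ∑ g, actU ω α g (f : Ultrapower A ω))
    rw [havg e he, mul_smul_comm, Finset.mul_sum]
    congr 1
    refine Finset.sum_congr rfl fun g _ => ?_
    rw [map_mul, ← actC_val ω α g e, he]

/-- For a finite group the relations of `Z(2,3)` are solvable among the fixed points. -/
theorem exists_relations_fixed [Finite G] (hω : (ω : Filter ℕ) ≤ cofinite)
    (hchar : NoCharacters (FOmega A ω)) :
    ∃ x v : Ultrapower A ω, x ∈ Fixed ω α ∧ v ∈ Fixed ω α ∧ x * x = 0 ∧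
      star v * v = 1 - (star x * x + x * star x) ∧ x * star x * v = v := by
  obtain ⟨x, v, h1, h2, h3⟩ :=
    exists_relations (copyProp_fixed ω α hω) (full_fixed ω α hω hchar)
  exact ⟨x, v, x.2, v.2, congrArg Subtype.val h1, congrArg Subtype.val h2, congrArg Subtype.val h3⟩

end Finite

/-- Solutions of the relations are contractions. -/
theorem norm_le_one_of_relations {E : Type*} [CStarAlgebra E] {x v : E}
    (h : star v * v = 1 - (star x * x + x * star x)) : ‖x‖ ≤ 1 ∧ ‖v‖ ≤ 1 := by
  let _ := CStarAlgebra.spectralOrder E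
  have _ := CStarAlgebra.spectralOrderedRing E
  have e : star v * v + star x * x + x * star x = 1 := by rw [h]; abel
  have key : ∀ z : E, star z * z ≤ 1 → ‖z‖ ≤ 1 := fun z hz => by
    have h2 := (CStarAlgebra.norm_le_one_iff_of_nonneg _ (star_mul_self_nonneg z)).2 hz
    rw [CStarRing.norm_star_mul_self] at h2
    nlinarith [norm_nonneg z]
  refine ⟨key x ?_, key v ?_⟩
  · calc star x * x ≤ star v * v + star x * x := le_add_of_nonneg_left (star_mul_self_nonneg v)
      _ ≤ _ := le_add_of_nonneg_right (mul_star_self_nonneg x)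
      _ = 1 := e
  · calc star v * v ≤ star v * v + star x * x := le_add_of_nonneg_right (star_mul_self_nonneg x)
      _ ≤ _ := le_add_of_nonneg_right (mul_star_self_nonneg x)
      _ = 1 := e

/-- For a locally finite group the relations of `Z(2,3)` are solvable among the fixed points. -/
theorem exists_relations_locallyFinite {A : Type*} [CStarAlgebra A]
    [TopologicalSpace.SeparableSpace A] {ω : Ultrafilter ℕ} (hω : (ω : Filter ℕ) ≤ cofinite)
    {G : Type} [Group G] [Countable G]
    (hG : ∀ S : Finset G, ((Subgroup.closure (S : Set G) : Subgroup G) : Set G).Finite)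
    (α : G →* (A ≃⋆ₐ[ℂ] A)) (hchar : NoCharacters (FOmega A ω)) :
    ∃ x v : Fixed ω α, x * x = 0 ∧ star v * v = 1 - (star x * x + x * star x) ∧
      x * star x * v = v := by
  classical
  obtain ⟨e, he⟩ := exists_surjective_nat G
  obtain ⟨a, ha⟩ := TopologicalSpace.exists_dense_seq A
  let H : ℕ → Subgroup G := fun n =>
    Subgroup.closure (((Finset.range (n + 1)).image e : Finset G) : Set G)
  have hH : ∀ n, ∃ x v : Ultrapower A ω, x ∈ Central A ω ∧ v ∈ Central A ω ∧
      (∀ g ∈ H n, actU ω α g x = x ∧ actU ω α g v = v) ∧ x * x = 0 ∧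
      star v * v = 1 - (star x * x + x * star x) ∧ x * star x * v = v := fun n => by
    have : Finite (H n) := (hG _).to_subtype
    obtain ⟨x, v, hx, hv, h⟩ := exists_relations_fixed ω (α.comp (H n).subtype) hω hchar
    exact ⟨x, v, hx.1, hv.1, fun g hg => ⟨hx.2 ⟨g, hg⟩, hv.2 ⟨g, hg⟩⟩, h⟩
  choose x v hxc hvc hfix hxx hvv hxv using hH
  have hlift : ∀ z : Ultrapower A ω, ‖z‖ ≤ 1 → ∃ f : ℕ →ᵇ A, cls ω f = z ∧ ‖f‖ ≤ 2 := fun z hz => by
    obtain ⟨f, hf, hfn⟩ := quot_exists_norm_lt (NullSeq A ω) z one_pos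
    exact ⟨f, hf, by linarith⟩
  choose xs hxs hxs2 using fun n => hlift (x n) (norm_le_one_of_relations (hvv n)).1
  choose vs hvs hvs2 using fun n => hlift (v n) (norm_le_one_of_relations (hvv n)).2
  -- the conditions at stage `n` and time `i`
  let β : ℕ → A →⋆ₐ[ℂ] A := fun j => StarAlgHomClass.toStarAlgHom (α (e j))
  let P : ℕ → ℕ → Prop := fun n i =>
    let d : ℝ := 1 / ((n : ℝ) + 1)
    ‖xs n i * xs n i‖ ≤ d ∧
    ‖star (vs n i) * vs n i - (1 - (star (xs n i) * xs n i + xs n i * star (xs n i)))‖ ≤ d ∧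
    ‖xs n i * star (xs n i) * vs n i - vs n i‖ ≤ d ∧
    (∀ j ∈ Finset.range (n + 1), ‖β j (xs n i) - xs n i‖ ≤ d ∧ ‖β j (vs n i) - vs n i‖ ≤ d) ∧
    (∀ j ∈ Finset.range (n + 1), ‖a j * xs n i - xs n i * a j‖ ≤ d ∧
      ‖a j * vs n i - vs n i * a j‖ ≤ d) ∧ n ≤ i
  have hP : ∀ n, ∀ᶠ i in (ω : Filter ℕ), P n i := fun n => by
    have hd : (0 : ℝ) < 1 / ((n : ℝ) + 1) := by positivity
    have hev : ∀ f g : ℕ →ᵇ A, cls ω f = cls ω g →
        ∀ᶠ i in (ω : Filter ℕ), ‖f i - g i‖ ≤ 1 / ((n : ℝ) + 1) := fun f g h =>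
      (mem_nullSeq.1 ((cls_eq_cls ω).1 h)).eventually (eventually_le_nhds hd)
    simp only [P, eventually_and, eventually_all_finset]
    refine ⟨?_, ?_, ?_, fun j hj => ?_, fun j hj => ?_, ?_⟩
    · simpa using hev (xs n * xs n) 0 (by rw [map_mul, hxs, hxx, map_zero])
    · simpa using hev (star (vs n) * vs n) (1 - (star (xs n) * xs n + xs n * star (xs n)))
        (by simp only [map_sub, map_add, map_mul, map_one, ← star_cls, hxs, hvs, hvv])
    · simpa using hev (xs n * star (xs n) * vs n) (vs n)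
        (by simp only [map_mul, ← star_cls, hxs, hvs, hxv])
    · have hg : e j ∈ H n :=
        Subgroup.subset_closure (Finset.mem_coe.2 (Finset.mem_image_of_mem e hj))
      exact ⟨hev (bmap (β j) (xs n)) (xs n) (by rw [← actU_cls, hxs, (hfix n _ hg).1]),
        hev (bmap (β j) (vs n)) (vs n) (by rw [← actU_cls, hvs, (hfix n _ hg).2])⟩
    · have hcom : ∀ (z : Ultrapower A ω), z ∈ Central A ω →
          constSeq ω (a j) * z = z * constSeq ω (a j) := fun z hz =>
        ((mem_central ω).1 hz (a j)).eq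
      constructor
      · simpa using hev (BoundedContinuousFunction.const ℕ (a j) * xs n)
          (xs n * BoundedContinuousFunction.const ℕ (a j))
          (by rw [map_mul, map_mul, hxs]; exact hcom _ (hxc n))
      · simpa using hev (BoundedContinuousFunction.const ℕ (a j) * vs n)
          (vs n * BoundedContinuousFunction.const ℕ (a j))
          (by rw [map_mul, map_mul, hvs]; exact hcom _ (hvc n))
    · exact hω (Nat.cofinite_eq_atTop ▸ eventually_ge_atTop n)
  let N : ℕ → ℕ := fun i => Nat.findGreatest (fun n => P n i) i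
  have hN : ∀ m, ∀ᶠ i in (ω : Filter ℕ), m ≤ N i ∧ P (N i) i := fun m => by
    filter_upwards [hP m] with i hi
    exact ⟨Nat.le_findGreatest hi.2.2.2.2.2 hi,
      Nat.findGreatest_spec (P := fun n => P n i) hi.2.2.2.2.2 hi⟩
  let X : ℕ →ᵇ A := BoundedContinuousFunction.ofNormedAddCommGroup (fun i => xs (N i) i)
    continuous_of_discreteTopology 2 fun i => ((xs _).norm_coe_le_norm i).trans (hxs2 _)
  let V : ℕ →ᵇ A := BoundedContinuousFunction.ofNormedAddCommGroup (fun i => vs (N i) i)
    continuous_of_discreteTopology 2 fun i => ((vs _).norm_coe_le_norm i).trans (hvs2 _)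
  -- the limit satisfies all conditions
  have hone : Tendsto (fun n : ℕ => 1 / ((n : ℝ) + 1)) atTop (𝓝 0) :=
    tendsto_one_div_add_atTop_nhds_zero_nat
  have hlim : ∀ (f g : ℕ →ᵇ A) (j : ℕ), (∀ i, j ≤ N i → P (N i) i →
      ‖f i - g i‖ ≤ 1 / ((N i : ℝ) + 1)) → cls ω f = cls ω g := by
    intro f g j h
    rw [cls_eq_cls, mem_nullSeq, Metric.tendsto_nhds]
    intro ε hε
    obtain ⟨m, hm⟩ := eventually_atTop.1 (Metric.tendsto_nhds.1 hone ε hε)
    filter_upwards [hN (max m j)] with i hi
    have h1 := hm (N i) ((le_max_left m j).trans hi.1)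
    rw [Real.dist_eq, sub_zero, abs_of_nonneg (by positivity)] at h1 ⊢
    exact (h i ((le_max_right m j).trans hi.1) hi.2).trans_lt h1
  have hcent : ∀ f : ℕ →ᵇ A, (∀ j i, j ≤ N i → P (N i) i →
      ‖a j * f i - f i * a j‖ ≤ 1 / ((N i : ℝ) + 1)) → cls ω f ∈ Central A ω := by
    intro f hf
    rw [mem_central]
    have hcl : IsClosed {b : A | Commute (constSeq ω b) (cls ω f)} := by
      have hc : Continuous fun b : A => constSeq ω b :=
        (AddMonoidHomClass.continuous_of_bound (cls ω).toLinearMap 1 fun g => by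
          rw [one_mul]
          exact quot_norm_mk_le (NullSeq A ω) g).comp
        (Isometry.continuous (Isometry.of_dist_eq fun p q => by
          simp [dist_eq_norm, BoundedContinuousFunction.norm_eq_iSup_norm]))
      exact isClosed_eq (hc.mul continuous_const) (continuous_const.mul hc)
    intro b
    refine closure_minimal ?_ hcl (ha b)
    rintro _ ⟨j, rfl⟩
    show constSeq ω (a j) * cls ω f = cls ω f * constSeq ω (a j)
    rw [← map_mul, ← map_mul]
    exact hlim _ _ j fun i h1 h2 => by simpa using hf j i h1 h2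
  have hr : ∀ {j i}, j ≤ N i → j ∈ Finset.range (N i + 1) := fun h => Finset.mem_range.2 (by omega)
  have hXF : cls ω X ∈ Fixed ω α := by
    refine ⟨hcent X fun j i h1 h2 => (h2.2.2.2.2.1 j (hr h1)).1, fun g => ?_⟩
    obtain ⟨j, rfl⟩ := he g
    rw [actU_cls]
    exact hlim _ _ j fun i h1 h2 => (h2.2.2.2.1 j (hr h1)).1
  have hVF : cls ω V ∈ Fixed ω α := by
    refine ⟨hcent V fun j i h1 h2 => (h2.2.2.2.2.1 j (hr h1)).2, fun g => ?_⟩
    obtain ⟨j, rfl⟩ := he g
    rw [actU_cls]
    exact hlim _ _ j fun i h1 h2 => (h2.2.2.2.1 j (hr h1)).2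
  refine ⟨⟨_, hXF⟩, ⟨_, hVF⟩, Subtype.ext ?_, Subtype.ext ?_, Subtype.ext ?_⟩
  · show cls ω X * cls ω X = 0
    rw [← map_mul, ← map_zero (cls (A := A) ω)]
    exact hlim _ _ 0 fun i _ h2 => by simpa [X] using h2.1
  · show star (cls ω V) * cls ω V =
      1 - (star (cls ω X) * cls ω X + cls ω X * star (cls ω X))
    simp only [star_cls, ← map_mul, ← map_add, ← map_one (cls (A := A) ω), ← map_sub]
    exact hlim _ _ 0 fun i _ h2 => by simpa [X, V] using h2.2.1
  · show cls ω X * star (cls ω X) * cls ω V = cls ω V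
    simp only [star_cls, ← map_mul]
    exact hlim _ _ 0 fun i _ h2 => by simpa [X, V] using h2.2.2.1

/-- `Z(2,3)` maps unitally into the fixed points for a countable locally finite group. -/
theorem fixed_dimDrop {A : Type*} [CStarAlgebra A] [TopologicalSpace.SeparableSpace A]
    {ω : Ultrafilter ℕ} (hω : (ω : Filter ℕ) ≤ cofinite) {G : Type} [Group G] [Countable G]
    (hG : ∀ S : Finset G, ((Subgroup.closure (S : Set G) : Subgroup G) : Set G).Finite)
    (α : G →* (A ≃⋆ₐ[ℂ] A)) (hchar : NoCharacters (FOmega A ω)) :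
    HasFixedDimDropHom ω fun g a => α g a := by
  obtain ⟨x, v, hx, hv, hxv⟩ := exists_relations_locallyFinite hω hG α hchar
  obtain ⟨φ⟩ := DD.exists_dimDrop_hom x v hx hv hxv
  let S : StarSubalgebra ℂ (Central A ω) := (Fixed ω α).comap (Central A ω).subtype
  have hS : IsClosed (S : Set (Central A ω)) :=
    (inferInstance : IsClosed (Fixed ω α : Set (Ultrapower A ω))).preimage continuous_subtype_val
  refine ⟨S, hS, fun x hx g f hf => ?_, ⟨((fixIncl ω α).comp φ).codRestrict S fun d => (φ d).2⟩⟩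
  have h := (show (Subtype.val x : Ultrapower A ω) ∈ Fixed ω α from hx).2 g
  have hf' : cls ω f = (Subtype.val x : Ultrapower A ω) := hf
  rw [← hf', actU_cls, cls_eq_cls, mem_nullSeq] at h
  exact h

end

end Vale.P095
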