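import Mathlib

/-!
# P095: placements with almost constant values, and symmetrisation of powers of sums

`exists_spread`: a bounded function of finite index sets is, on some index set of any prescribed
size, almost a function of the cardinality alone.  `norm_pow_sub_le`: the `k`-th power of a sum of
commuting elements is, up to a lower order term, `k!` times the elementary symmetric sum.
-/

open Filter Topology

namespace Vale.P095

noncomputable section

/-- Iterated limits along an ultrafilter in one more index. -/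
def iterLim (p : Ultrafilter ℕ) (f : Finset ℕ → ℂ) : ℕ → Finset ℕ → ℂ
  | 0 => f
  | j + 1 => fun P => limUnder (p : Filter ℕ) fun n => iterLim p f j (insert n P)

theorem iterLim_spec {p : Ultrafilter ℕ} (hp : (p : Filter ℕ) ≤ cofinite) {f : Finset ℕ → ℂ}
    {B : ℕ → ℝ} (hf : ∀ P, ‖f P‖ ≤ B P.card) :
    ∀ j, (∀ P, ‖iterLim p f j P‖ ≤ B (j + P.card)) ∧
      ∀ P, Tendsto (fun n => iterLim p f j (insert n P)) p (𝓝 (iterLim p f (j + 1) P)) := by
  have hlim : ∀ (g : ℕ → ℂ) (R : ℝ), (∀ᶠ n in (p : Filter ℕ), ‖g n‖ ≤ R) →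
      ‖limUnder (p : Filter ℕ) g‖ ≤ R ∧ Tendsto g p (𝓝 (limUnder (p : Filter ℕ) g)) := by
    intro g R hg
    obtain ⟨z, hz, hgz⟩ := (isCompact_closedBall (0 : ℂ) R).ultrafilter_le_nhds (p.map g) (by
      rw [Ultrafilter.coe_map, le_principal_iff, Filter.mem_map]
      filter_upwards [hg] with n hn
      simpa using hn)
    rw [Ultrafilter.coe_map] at hgz
    have ht : Tendsto g p (𝓝 (limUnder (p : Filter ℕ) g)) := tendsto_nhds_limUnder ⟨z, hgz⟩
    exact ⟨le_of_tendsto ht.norm hg, ht⟩
  have step : ∀ j, (∀ P, ‖iterLim p f j P‖ ≤ B (j + P.card)) → ∀ P,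
      ∀ᶠ n in (p : Filter ℕ), ‖iterLim p f j (insert n P)‖ ≤ B (j + 1 + P.card) := by
    intro j hj P
    have hnot : ∀ᶠ n in (p : Filter ℕ), n ∉ P := hp P.eventually_cofinite_notMem
    filter_upwards [hnot] with n hn
    have := hj (insert n P)
    rwa [Finset.card_insert_of_notMem hn, show j + (P.card + 1) = j + 1 + P.card by omega] at this
  have hb : ∀ j P, ‖iterLim p f j P‖ ≤ B (j + P.card) := by
    intro j
    induction j with
    | zero => simpa [iterLim] using hf
    | succ j ih => exact fun P => (hlim _ _ (step j ih P)).1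
  exact fun j => ⟨hb j, fun P => (hlim _ _ (step j (hb j) P)).2⟩

/-- A bounded function of finite sets is almost a function of the cardinality on some large set. -/
theorem exists_spread {ι : Type*} [Finite ι] {f : ι → Finset ℕ → ℂ} {B : ℕ → ℝ}
    (hf : ∀ i P, ‖f i P‖ ≤ B P.card) :
    ∃ L : ι → ℕ → ℂ, ∀ (N : ℕ) (ε : ℝ), 0 < ε →
      ∃ I : Finset ℕ, I.card = N ∧ ∀ P ⊆ I, ∀ i, ‖f i P - L i P.card‖ ≤ ε := by
  classical
  set p : Ultrafilter ℕ := hyperfilter ℕ
  have hp : (p : Filter ℕ) ≤ cofinite := hyperfilter_le_cofinite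
  refine ⟨fun i k => iterLim p (f i) k ∅, fun N ε hε => ?_⟩
  obtain ⟨δ, hδ, hδN⟩ : ∃ δ > 0, (N : ℝ) * δ ≤ ε :=
    ⟨ε / (N + 1), by positivity, by rw [mul_div_assoc', div_le_iff₀ (by positivity)]; nlinarith⟩
  suffices ∀ M ≤ N, ∃ I : Finset ℕ, I.card = M ∧ ∀ P ⊆ I, ∀ i j, j + P.card ≤ N →
      ‖iterLim p (f i) j P - iterLim p (f i) (j + P.card) ∅‖ ≤ P.card * δ by
    obtain ⟨I, hI, h⟩ := this N le_rfl
    refine ⟨I, hI, fun P hP i => ?_⟩
    have hc : P.card ≤ N := hI ▸ Finset.card_le_card hP
    have := h P hP i 0 (by omega)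
    simp only [zero_add] at this
    exact this.trans ((mul_le_mul_of_nonneg_right (by exact_mod_cast hc) hδ.le).trans hδN)
  intro M hM
  induction M with
  | zero =>
    refine ⟨∅, rfl, fun P hP i j _ => ?_⟩
    rw [Finset.subset_empty.1 hP]
    simp
  | succ M ih =>
    obtain ⟨I, hI, h⟩ := ih (by omega)
    have hnot : ∀ᶠ n in (p : Filter ℕ), n ∉ I := hp I.eventually_cofinite_notMem
    have hev : ∀ᶠ n in (p : Filter ℕ), ∀ P ∈ I.powerset, ∀ i, ∀ j ∈ Finset.range N,
        dist (iterLim p (f i) j (insert n P)) (iterLim p (f i) (j + 1) P) < δ := by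
      simp only [eventually_all_finset, eventually_all]
      intro P _ i j _
      exact Metric.tendsto_nhds.1 ((iterLim_spec hp (hf i) j).2 P) δ hδ
    obtain ⟨n, hn, hn'⟩ := (hnot.and hev).exists
    refine ⟨insert n I, by rw [Finset.card_insert_of_notMem hn, hI], fun P hP i j hj => ?_⟩
    by_cases hnP : n ∈ P
    · set P₀ := P.erase n
      have hP₀ : P₀ ⊆ I := Finset.subset_insert_iff.1 hP
      have hcard : P.card = P₀.card + 1 := (Finset.card_erase_add_one hnP).symm
      have h1 := hn' P₀ (Finset.mem_powerset.2 hP₀) i j (Finset.mem_range.2 (by omega))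
      rw [Finset.insert_erase hnP, dist_eq_norm] at h1
      have h2 := h P₀ hP₀ i (j + 1) (by omega)
      rw [show j + 1 + P₀.card = j + P.card by omega] at h2
      have h3 := norm_sub_le_norm_sub_add_norm_sub (iterLim p (f i) j P)
        (iterLim p (f i) (j + 1) P₀) (iterLim p (f i) (j + P.card) ∅)
      have h4 : (P.card : ℝ) * δ = P₀.card * δ + δ := by rw [hcard]; push_cast; ring
      linarith
    · exact h P ((Finset.subset_insert_iff_of_notMem hnP).1 hP) i j hj

/-! ## Symmetrisation -/

variable {E : Type*} [NormedRing E] [NormOneClass E]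

/-- The product of pairwise commuting elements over a finite index set. -/
def pProd (a : ℕ → E) (ha : ∀ i j, Commute (a i) (a j)) (P : Finset ℕ) : E :=
  P.noncommProd a fun i _ j _ _ => ha i j

theorem pProd_empty {a : ℕ → E} (ha : ∀ i j, Commute (a i) (a j)) : pProd a ha ∅ = 1 :=
  Finset.noncommProd_empty _ _

theorem pProd_insert {a : ℕ → E} (ha : ∀ i j, Commute (a i) (a j)) {P : Finset ℕ} {i : ℕ}
    (hi : i ∉ P) : pProd a ha (insert i P) = a i * pProd a ha P :=
  Finset.noncommProd_insert_of_notMem _ _ _ _ hi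

theorem norm_pProd_le {a : ℕ → E} (ha : ∀ i j, Commute (a i) (a j)) {M : ℝ}
    (hM : ∀ i, ‖a i‖ ≤ M) (P : Finset ℕ) : ‖pProd a ha P‖ ≤ M ^ P.card := by
  induction P using Finset.induction_on with
  | empty => simp [pProd_empty ha]
  | insert i P hi ih =>
    rw [pProd_insert ha hi, Finset.card_insert_of_notMem hi, pow_succ']
    exact (norm_mul_le _ _).trans (mul_le_mul (hM i) ih (norm_nonneg _)
      ((norm_nonneg _).trans (hM i)))

/-- `(∑ a)^k` is `k!` times the sum of the `k`-fold products, up to lower order. -/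
theorem norm_pow_sub_le {a : ℕ → E} (ha : ∀ i j, Commute (a i) (a j)) {M : ℝ}
    (hM : ∀ i, ‖a i‖ ≤ M) (I : Finset ℕ) (k : ℕ) :
    (I.card : ℝ) * ‖(∑ i ∈ I, a i) ^ k - k.factorial • ∑ P ∈ I.powersetCard k, pProd a ha P‖ ≤
      (k : ℝ) ^ 2 * (I.card : ℝ) ^ k * M ^ k := by
  classical
  have hM0 : 0 ≤ M := (norm_nonneg _).trans (hM 0)
  induction k with
  | zero =>
    simp [pProd_empty ha]
  | succ k ih =>
    set N := I.card
    set S := ∑ i ∈ I, a i
    set T : ℕ → E := fun k => ∑ P ∈ I.powersetCard k, pProd a ha P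
    set R : E := ∑ P ∈ I.powersetCard k, ∑ i ∈ P, a i * pProd a ha P
    have hST : S * T k = (k + 1) • T (k + 1) + R := by
      have hsplit : S * T k = (∑ P ∈ I.powersetCard k, ∑ i ∈ I \ P, a i * pProd a ha P) + R := by
        rw [Finset.mul_sum, ← Finset.sum_add_distrib]
        refine Finset.sum_congr rfl fun P hP => ?_
        rw [Finset.sum_mul, Finset.sum_sdiff (Finset.mem_powersetCard.1 hP).1]
      rw [hsplit]
      congr 1
      calc ∑ P ∈ I.powersetCard k, ∑ i ∈ I \ P, a i * pProd a ha P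
          = ∑ Q ∈ I.powersetCard (k + 1), ∑ _i ∈ Q, pProd a ha Q := by
            rw [Finset.sum_sigma' (I.powersetCard k), Finset.sum_sigma' (I.powersetCard (k + 1))]
            refine Finset.sum_bij' (fun x _ => ⟨insert x.2 x.1, x.2⟩)
              (fun x _ => ⟨x.1.erase x.2, x.2⟩) ?_ ?_ ?_ ?_ ?_
            · rintro ⟨P, i⟩ h
              simp only [Finset.mem_sigma, Finset.mem_powersetCard, Finset.mem_sdiff] at h ⊢
              exact ⟨⟨Finset.insert_subset h.2.1 h.1.1,
                by rw [Finset.card_insert_of_notMem h.2.2, h.1.2]⟩, Finset.mem_insert_self i P⟩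
            · rintro ⟨Q, i⟩ h
              simp only [Finset.mem_sigma, Finset.mem_powersetCard, Finset.mem_sdiff] at h ⊢
              exact ⟨⟨(Finset.erase_subset _ _).trans h.1.1,
                by rw [Finset.card_erase_of_mem h.2, h.1.2]; rfl⟩, h.1.1 h.2,
                Finset.notMem_erase i Q⟩
            · rintro ⟨P, i⟩ h
              simp only [Finset.mem_sigma, Finset.mem_sdiff] at h
              simp [Finset.erase_insert h.2.2]
            · rintro ⟨Q, i⟩ h
              simp only [Finset.mem_sigma] at h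
              simp [Finset.insert_erase h.2]
            · rintro ⟨P, i⟩ h
              simp only [Finset.mem_sigma, Finset.mem_sdiff] at h
              exact (pProd_insert ha h.2.2).symm
        _ = (k + 1) • T (k + 1) := by
            rw [Finset.smul_sum]
            refine Finset.sum_congr rfl fun Q hQ => ?_
            rw [Finset.sum_const, (Finset.mem_powersetCard.1 hQ).2]
    have hdec : S ^ (k + 1) - (k + 1).factorial • T (k + 1) =
        S * (S ^ k - k.factorial • T k) + k.factorial • R := by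
      rw [mul_sub, mul_smul_comm, hST, smul_add, smul_smul, pow_succ',
        Nat.factorial_succ, mul_comm (k + 1)]
      abel
    have hS : ‖S‖ ≤ N * M := by
      refine (norm_sum_le _ _).trans ((Finset.sum_le_sum fun i _ => hM i).trans_eq ?_)
      simp [N]
    have hR : ‖k.factorial • R‖ ≤ (N : ℝ) ^ k * (k * M ^ (k + 1)) := by
      have h1 : ‖R‖ ≤ (I.powersetCard k).card * (k * M ^ (k + 1)) := by
        refine (norm_sum_le _ _).trans ((Finset.sum_le_sum
          (g := fun _ => (k : ℝ) * M ^ (k + 1)) fun P hP => ?_).trans_eq (by simp))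
        have hc := (Finset.mem_powersetCard.1 hP).2
        refine (norm_sum_le _ _).trans ((Finset.sum_le_sum
          (g := fun _ => M ^ (k + 1)) fun i _ => ?_).trans_eq (by simp [hc]))
        rw [pow_succ']
        exact (norm_mul_le _ _).trans (mul_le_mul (hM i) (hc ▸ norm_pProd_le ha hM P)
          (norm_nonneg _) hM0)
      calc ‖k.factorial • R‖ ≤ (k.factorial : ℝ) * ‖R‖ := norm_nsmul_le ..
        _ ≤ (k.factorial : ℝ) * ((I.powersetCard k).card * (k * M ^ (k + 1))) :=
            mul_le_mul_of_nonneg_left h1 (Nat.cast_nonneg _)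
        _ = ((k.factorial * N.choose k : ℕ) : ℝ) * (k * M ^ (k + 1)) := by
            rw [Finset.card_powersetCard]; push_cast; ring
        _ ≤ _ := mul_le_mul_of_nonneg_right (by
            rw [← Nat.descFactorial_eq_factorial_mul_choose]
            exact_mod_cast Nat.descFactorial_le_pow N k) (by positivity)
    rw [show (∑ P ∈ I.powersetCard (k + 1), pProd a ha P) = T (k + 1) from rfl, hdec]
    calc (N : ℝ) * ‖S * (S ^ k - k.factorial • T k) + k.factorial • R‖
        ≤ (N : ℝ) * (N * M * ‖S ^ k - k.factorial • T k‖ + (N : ℝ) ^ k * (k * M ^ (k + 1))) :=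
          mul_le_mul_of_nonneg_left ((norm_add_le _ _).trans (add_le_add
            ((norm_mul_le _ _).trans (mul_le_mul_of_nonneg_right hS (norm_nonneg _))) hR))
            (Nat.cast_nonneg _)
      _ = (N : ℝ) * M * ((N : ℝ) * ‖S ^ k - k.factorial • T k‖) +
            (N : ℝ) ^ (k + 1) * (k * M ^ (k + 1)) := by ring
      _ ≤ (N : ℝ) * M * ((k : ℝ) ^ 2 * (N : ℝ) ^ k * M ^ k) +
            (N : ℝ) ^ (k + 1) * (k * M ^ (k + 1)) :=
          add_le_add (mul_le_mul_of_nonneg_left ih (by positivity)) le_rfl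
      _ = ((k : ℝ) ^ 2 + k) * ((N : ℝ) ^ (k + 1) * M ^ (k + 1)) := by ring
      _ ≤ ((k + 1 : ℕ) : ℝ) ^ 2 * (N : ℝ) ^ (k + 1) * M ^ (k + 1) := by
          rw [mul_assoc (((k + 1 : ℕ) : ℝ) ^ 2)]
          refine mul_le_mul_of_nonneg_right ?_ (by positivity)
          push_cast
          nlinarith [Nat.cast_nonneg (α := ℝ) k]

end

end Vale.P095
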