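import Vale.Agent.P095.Finite.Fun
import Vale.Agent.P095.Finite.Spread

/-!
# P095: a state on one copy from the averages over many commuting copies

Given pairwise commuting equivariant copies `ρ i` of `gen s` and index sets `I n` of size `n + 1`,
the averages over `I n` of the copies commute in the ultrapower of the ambient algebra.  A character
of the commutative algebra they generate, extending `lim ψ` on the invariant elements, gives a state
`φ` on `gen s` whose power sums over invariant families are the limits of the symmetrised values.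
-/

open scoped BoundedContinuousFunction ComplexOrder
open Filter Topology

namespace Vale.P095

open Vale.P101

noncomputable section

variable {F : Type*} [CStarAlgebra F]

/-- The value of a symmetrised power. -/
theorem eval_bound [Nontrivial F] {ι : Type*} [Fintype ι] (ψ : F →ₗ[ℂ] ℂ)
    (hψ : ∀ f, ‖ψ f‖ ≤ ‖f‖) (a : ι → ℕ → F) (ha : ∀ u i j, Commute (a u i) (a u j)) {M : ℝ}
    (hM : ∀ u i, ‖a u i‖ ≤ M) {I : Finset ℕ} (hI : I.Nonempty) (k : ℕ) (ℓ : ℂ) {δ : ℝ}
    (hδ : 0 ≤ δ) (hP : ∀ P ∈ I.powersetCard k, ‖ψ (∑ u, pProd (a u) (ha u) P) - ℓ‖ ≤ δ) :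
    ‖ψ (∑ u, ((I.card : ℂ)⁻¹ • ∑ i ∈ I, a u i) ^ k) - ℓ‖ ≤
      ((Fintype.card ι : ℝ) * k ^ 2 * M ^ k + k ^ 2 * ‖ℓ‖) / I.card + δ := by
  classical
  set N : ℕ := I.card
  have hN : (0 : ℝ) < N := by exact_mod_cast hI.card_pos
  set V : Finset ℕ → ℂ := fun P => ψ (∑ u, pProd (a u) (ha u) P)
  set W : ℂ := ψ (∑ u, (∑ i ∈ I, a u i) ^ k)
  set Pk := I.powersetCard k
  have hlin : ψ (∑ u, ((N : ℂ)⁻¹ • ∑ i ∈ I, a u i) ^ k) = ((N : ℂ) ^ k)⁻¹ * W := by
    simp only [smul_pow, inv_pow, ← Finset.smul_sum, map_smul, smul_eq_mul, W]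
  have h1 : (N : ℝ) * ‖W - k.factorial * ∑ P ∈ Pk, V P‖ ≤
      Fintype.card ι * ((k : ℝ) ^ 2 * (N : ℝ) ^ k * M ^ k) := by
    have e : W - k.factorial * ∑ P ∈ Pk, V P =
        ψ (∑ u, ((∑ i ∈ I, a u i) ^ k - k.factorial • ∑ P ∈ Pk, pProd (a u) (ha u) P)) := by
      rw [Finset.sum_sub_distrib, map_sub, ← Finset.smul_sum, map_nsmul, nsmul_eq_mul,
        Finset.sum_comm]
      simp only [W, V, map_sum]
    rw [e]
    refine le_trans (mul_le_mul_of_nonneg_left ((hψ _).trans (norm_sum_le _ _)) hN.le) ?_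
    rw [Finset.mul_sum]
    exact (Finset.sum_le_sum fun u _ => norm_pow_sub_le (ha u) (hM u) I k).trans_eq (by simp [N])
  have h2 : ‖(k.factorial : ℂ) * ∑ P ∈ Pk, V P - (k.factorial * N.choose k : ℕ) * ℓ‖ ≤
      (N : ℝ) ^ k * δ := by
    have e : (k.factorial : ℂ) * ∑ P ∈ Pk, V P - (k.factorial * N.choose k : ℕ) * ℓ =
        (k.factorial : ℂ) * ∑ P ∈ Pk, (V P - ℓ) := by
      rw [Finset.sum_sub_distrib, Finset.sum_const, Finset.card_powersetCard, nsmul_eq_mul]
      push_cast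
      ring
    rw [e, norm_mul, Complex.norm_natCast]
    calc (k.factorial : ℝ) * ‖∑ P ∈ Pk, (V P - ℓ)‖
        ≤ (k.factorial : ℝ) * (N.choose k * δ) :=
          mul_le_mul_of_nonneg_left ((norm_sum_le _ _).trans ((Finset.sum_le_sum hP).trans_eq
            (by simp [Pk, N]))) (Nat.cast_nonneg _)
      _ = ((k.factorial * N.choose k : ℕ) : ℝ) * δ := by push_cast; ring
      _ ≤ _ := mul_le_mul_of_nonneg_right (by
          rw [← Nat.descFactorial_eq_factorial_mul_choose]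
          exact_mod_cast Nat.descFactorial_le_pow N k) hδ
  have h3 : (N : ℝ) * ‖((N : ℂ) ^ k - (k.factorial * N.choose k : ℕ)) * ℓ‖ ≤
      (k : ℝ) ^ 2 * (N : ℝ) ^ k * ‖ℓ‖ := by
    have h := norm_pow_sub_le (a := fun _ : ℕ => (1 : ℂ)) (fun _ _ => Commute.one_left _)
      (M := 1) (fun _ => norm_one.le) I k
    have e : ∀ P : Finset ℕ, pProd (fun _ : ℕ => (1 : ℂ)) (fun _ _ => Commute.one_left _) P = 1 := by
      intro P
      induction P using Finset.induction_on with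
      | empty => exact pProd_empty _
      | insert i P hi ih => rw [pProd_insert _ hi, ih, one_mul]
    simp only [e, Finset.sum_const, Finset.card_powersetCard, nsmul_eq_mul, mul_one, one_pow] at h
    rw [norm_mul, ← mul_assoc]
    refine mul_le_mul_of_nonneg_right ?_ (norm_nonneg _)
    push_cast
    simpa [N] using h
  have hNk : (0 : ℝ) < (N : ℝ) ^ k := by positivity
  have hW : (N : ℝ) * ‖W - (N : ℂ) ^ k * ℓ‖ ≤ (N : ℝ) ^ k *
      (Fintype.card ι * (k : ℝ) ^ 2 * M ^ k + (k : ℝ) ^ 2 * ‖ℓ‖ + N * δ) := by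
    have e : W - (N : ℂ) ^ k * ℓ = (W - k.factorial * ∑ P ∈ Pk, V P) +
        ((k.factorial : ℂ) * ∑ P ∈ Pk, V P - (k.factorial * N.choose k : ℕ) * ℓ) -
        ((N : ℂ) ^ k - (k.factorial * N.choose k : ℕ)) * ℓ := by ring
    rw [e]
    refine le_trans (mul_le_mul_of_nonneg_left
      ((norm_sub_le _ _).trans (add_le_add (norm_add_le _ _) le_rfl)) hN.le) ?_
    have h2' := mul_le_mul_of_nonneg_left h2 hN.le
    rw [mul_add, mul_add]
    linarith [h1, h2', h3]
  rw [hlin]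
  have e : ((N : ℂ) ^ k)⁻¹ * W - ℓ = ((N : ℂ) ^ k)⁻¹ * (W - (N : ℂ) ^ k * ℓ) := by
    rw [mul_sub, ← mul_assoc, inv_mul_cancel₀ (by exact_mod_cast hNk.ne'), one_mul]
  rw [e, norm_mul, norm_inv, norm_pow, Complex.norm_natCast, inv_mul_le_iff₀ hNk,
    div_add' _ _ _ hN.ne', mul_div_assoc', le_div_iff₀ hN]
  linarith [hW]

theorem norm_algebraMap_sub_star_mul_le {M : ℝ} (c : F) (hc : ‖c‖ ≤ M) :
    ‖algebraMap ℝ F (M ^ 2) - star c * c‖ ≤ M ^ 2 := by
  let _ := CStarAlgebra.spectralOrder F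
  have _ := CStarAlgebra.spectralOrderedRing F
  have hsa : IsSelfAdjoint (star c * c) := IsSelfAdjoint.star_mul_self c
  have e : algebraMap ℝ F (M ^ 2) - star c * c = cfc (fun t : ℝ => M ^ 2 - t) (star c * c) := by
    rw [cfc_sub (fun _ : ℝ => M ^ 2) (fun t => t) (star c * c), cfc_const (M ^ 2) (star c * c),
      cfc_id' ℝ (star c * c)]
  rw [e]
  refine norm_cfc_le (sq_nonneg M) fun t ht => ?_
  have h0 : 0 ≤ t := spectrum_nonneg_of_nonneg (star_mul_self_nonneg c) ht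
  have h1 : t ≤ M ^ 2 := by
    rcases subsingleton_or_nontrivial F with _ | _
    · simp [spectrum.of_subsingleton] at ht
    · have := spectrum.norm_le_norm_of_mem ht
      rw [Real.norm_eq_abs, abs_of_nonneg h0, CStarRing.norm_star_mul_self] at this
      exact this.trans (by rw [sq]; exact mul_self_le_mul_self (norm_nonneg _) hc)
  rw [Real.norm_eq_abs, abs_of_nonneg (by linarith)]
  linarith

variable {G : Type*} [Group G] [Fintype G]

/-- The average of `ρ i a` over `I n`, as a bounded sequence in `n`. -/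
def avgSeq {s : Set F} (ρ : ℕ → (gen s →⋆ₐ[ℂ] F)) (hnorm : ∀ i (a : gen s), ‖ρ i a‖ ≤ ‖(a : F)‖)
    (I : ℕ → Finset ℕ) (hI : ∀ n, (I n).card = n + 1) (a : gen s) : ℕ →ᵇ F :=
  BoundedContinuousFunction.ofNormedAddCommGroup
    (fun n => ((I n).card : ℂ)⁻¹ • ∑ i ∈ I n, ρ i a) continuous_of_discreteTopology ‖(a : F)‖
    fun n => by
      rw [norm_smul, norm_inv, Complex.norm_natCast, hI n,
        inv_mul_le_iff₀ (by exact_mod_cast Nat.succ_pos n)]
      exact (norm_sum_le _ _).trans ((Finset.sum_le_sum fun i _ => hnorm i a).trans_eq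
        (by rw [Finset.sum_const, nsmul_eq_mul, hI n]))

section Avg

variable {s : Set F} (ρ : ℕ → (gen s →⋆ₐ[ℂ] F)) (hnorm : ∀ i (a : gen s), ‖ρ i a‖ ≤ ‖(a : F)‖)
  (I : ℕ → Finset ℕ) (hI : ∀ n, (I n).card = n + 1)

theorem avgSeq_apply (a : gen s) (n : ℕ) :
    avgSeq ρ hnorm I hI a n = ((I n).card : ℂ)⁻¹ • ∑ i ∈ I n, ρ i a := rfl

/-- The averages, as a linear map to the ultrapower. -/
def avgMap : gen s →ₗ[ℂ] P101.Ultrapower F (hyperfilter ℕ) where
  toFun a := cls (hyperfilter ℕ) (avgSeq ρ hnorm I hI a)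
  map_add' a a' := by
    rw [← map_add]
    congr 1
    ext n
    simp [avgSeq_apply, Finset.sum_add_distrib]
  map_smul' c a := by
    rw [RingHom.id_apply, ← map_smul]
    congr 1
    ext n
    simp [avgSeq_apply, ← Finset.smul_sum, smul_comm c]

theorem avgMap_apply (a : gen s) :
    avgMap ρ hnorm I hI a = cls (hyperfilter ℕ) (avgSeq ρ hnorm I hI a) := rfl

theorem avgMap_one : avgMap ρ hnorm I hI 1 = 1 := by
  rw [avgMap_apply, ← map_one (cls (A := F) (hyperfilter ℕ))]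
  congr 1
  ext n
  have : ((I n).card : ℂ) ≠ 0 := by simp [hI n]; norm_cast
  simp [avgSeq_apply, ← Nat.cast_smul_eq_nsmul ℂ, smul_smul, inv_mul_cancel₀ this]

theorem avgMap_star (a : gen s) :
    avgMap ρ hnorm I hI (star a) = star (avgMap ρ hnorm I hI a) := by
  rw [avgMap_apply, avgMap_apply, star_cls]
  congr 1
  ext n
  simp [avgSeq_apply, map_star, star_sum]

theorem tendsto_one_div_hyperfilter :
    Tendsto (fun n : ℕ => 1 / ((n : ℝ) + 1)) (hyperfilter ℕ) (𝓝 0) :=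
  (tendsto_one_div_add_atTop_nhds_zero_nat (𝕜 := ℝ)).mono_left
    (Nat.cofinite_eq_atTop ▸ hyperfilter_le_cofinite)

theorem avgMap_commute (hcomm : Pairwise fun i j => ∀ a b, Commute (ρ i a) (ρ j b))
    (a b : gen s) : Commute (avgMap ρ hnorm I hI a) (avgMap ρ hnorm I hI b) := by
  refine commute_cls_of_tendsto _ (squeeze_zero (fun n => norm_nonneg _) (fun n => ?_)
    (by simpa using (tendsto_one_div_hyperfilter).const_mul (2 * ‖(a : F)‖ * ‖(b : F)‖)))
  set c : ℂ := ((I n).card : ℂ)⁻¹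
  have hc : ‖c‖ = 1 / ((n : ℝ) + 1) := by
    simp only [c]
    rw [norm_inv, Complex.norm_natCast, hI n, one_div]
    push_cast
    rfl
  have e : (c • ∑ i ∈ I n, ρ i a) * (c • ∑ i ∈ I n, ρ i b) -
      (c • ∑ i ∈ I n, ρ i b) * (c • ∑ i ∈ I n, ρ i a) =
      (c * c) • ∑ i ∈ I n, (ρ i a * ρ i b - ρ i b * ρ i a) := by
    simp only [smul_mul_smul_comm, Finset.sum_mul_sum, ← smul_sub]
    congr 1
    rw [Finset.sum_comm (f := fun i j => ρ i b * ρ j a), ← Finset.sum_sub_distrib]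
    refine Finset.sum_congr rfl fun i hi => ?_
    rw [← Finset.sum_sub_distrib, Finset.sum_eq_single i]
    · intro j _ hji
      rw [(hcomm hji.symm a b).eq, sub_self]
    · exact fun h => absurd hi h
  rw [avgSeq_apply, avgSeq_apply, e, norm_smul, norm_mul, hc]
  have hab : ∀ i, ∀ p q : gen s, ‖ρ i p * ρ i q‖ ≤ ‖(p : F)‖ * ‖(q : F)‖ := fun i p q =>
    (norm_mul_le _ _).trans (mul_le_mul (hnorm i p) (hnorm i q) (norm_nonneg _) (norm_nonneg _))
  have hsum : ‖∑ i ∈ I n, (ρ i a * ρ i b - ρ i b * ρ i a)‖ ≤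
      ((n : ℝ) + 1) * (2 * ‖(a : F)‖ * ‖(b : F)‖) := by
    refine (norm_sum_le _ _).trans ((Finset.sum_le_sum
      (g := fun _ => 2 * ‖(a : F)‖ * ‖(b : F)‖) fun i _ => ?_).trans_eq (by simp [hI n]))
    exact (norm_sub_le _ _).trans (by nlinarith [hab i a b, hab i b a])
  refine (mul_le_mul_of_nonneg_left hsum (by positivity)).trans_eq ?_
  field_simp

theorem norm_sub_avgMap_le (a : gen s) :
    ‖((‖(a : F)‖ ^ 2 : ℝ) : ℂ) • (1 : P101.Ultrapower F (hyperfilter ℕ)) -
      avgMap ρ hnorm I hI (star a * a)‖ ≤ ‖(a : F)‖ ^ 2 := by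
  set R : ℝ := ‖(a : F)‖ ^ 2
  rw [← map_one (cls (A := F) (hyperfilter ℕ)), avgMap_apply, ← map_smul, ← map_sub, norm_cls]
  refine le_of_tendsto (tendsto_limNorm _ _) (Eventually.of_forall fun n => ?_)
  have hn : ((I n).card : ℂ) ≠ 0 := by simp [hI n]; norm_cast
  have e : ((R : ℂ) • (1 : ℕ →ᵇ F) - avgSeq ρ hnorm I hI (star a * a)) n =
      ((I n).card : ℂ)⁻¹ • ∑ i ∈ I n, (algebraMap ℝ F R - star (ρ i a) * ρ i a) := by
    rw [Finset.sum_sub_distrib, smul_sub, Finset.sum_const, ← Nat.cast_smul_eq_nsmul ℂ, smul_smul,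
      inv_mul_cancel₀ hn, one_smul, IsScalarTower.algebraMap_apply ℝ ℂ F,
      Algebra.algebraMap_eq_smul_one ((algebraMap ℝ ℂ) R)]
    simp [avgSeq_apply, map_star]
  rw [e, norm_smul, norm_inv, Complex.norm_natCast,
    inv_mul_le_iff₀ (by rw [hI n]; exact_mod_cast Nat.succ_pos n)]
  exact (norm_sum_le _ _).trans ((Finset.sum_le_sum (g := fun _ => R)
    fun i _ => norm_algebraMap_sub_star_mul_le _ (hnorm i a)).trans_eq (by simp))

theorem mapU_avgMap {f : F →⋆ₐ[ℂ] F} {b c : gen s} (h : ∀ i, ρ i c = f (ρ i b)) :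
    mapU (hyperfilter ℕ) f (avgMap ρ hnorm I hI b) = avgMap ρ hnorm I hI c := by
  rw [avgMap_apply, avgMap_apply, mapU_cls]
  congr 1
  ext n
  simp [avgSeq_apply, bmap_apply, h]

end Avg

/-- The limit of a functional which is multiplicative on the fixed elements. -/
theorem exists_limFun {β : G → (F →⋆ₐ[ℂ] F)} (hβ : ∀ g h x, β (g * h) x = β g (β h x))
    (U : Ultrafilter ℕ) {ψ : F →ₗ[ℂ] ℂ} (hψ1 : ψ 1 = 1) (hψn : ∀ f, ‖ψ f‖ ≤ ‖f‖)
    (hψm : ∀ e, (∀ g, β g e = e) → ∀ f, ψ (e * f) = ψ e * ψ f) :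
    ∃ Λ : P101.Ultrapower F U →ₗ[ℂ] ℂ,
      (∀ f, Tendsto (fun n => ψ (f n)) U (𝓝 (Λ (cls U f)))) ∧ Λ 1 = 1 ∧
      ∀ x, (∀ g, mapU U (β g) x = x) → ∀ y, Λ (x * y) = Λ x * Λ y := by
  choose rep hrep using cls_surjective (A := F) U
  let L : P101.Ultrapower F U → ℂ := fun x => limUnder (U : Filter ℕ) fun n => ψ (rep x n)
  have hL : ∀ f : ℕ →ᵇ F, Tendsto (fun n => ψ (f n)) U (𝓝 (L (cls U f))) := by
    have hex : ∀ f : ℕ →ᵇ F, ∃ z, Tendsto (fun n => ψ (f n)) U (𝓝 z) := fun f => by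
      obtain ⟨z, -, hz⟩ := (isCompact_closedBall (0 : ℂ) ‖f‖).ultrafilter_le_nhds
        (U.map fun n => ψ (f n)) (by
          rw [Ultrafilter.coe_map, le_principal_iff, Filter.mem_map]
          exact Filter.univ_mem' fun n => by
            simpa using (hψn _).trans (f.norm_coe_le_norm n))
      exact ⟨z, by rwa [Ultrafilter.coe_map] at hz⟩
    intro f
    have h1 : Tendsto (fun n => ψ (rep (cls U f) n)) U (𝓝 (L (cls U f))) :=
      tendsto_nhds_limUnder (hex _)
    have h2 : Tendsto (fun n => ψ (f n) - ψ (rep (cls U f) n)) U (𝓝 0) := by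
      refine squeeze_zero_norm (a := fun n => ‖f n - rep (cls U f) n‖)
        (fun n => by rw [← map_sub]; exact hψn _) ?_
      simpa using mem_nullSeq.1 ((cls_eq_cls U).1 (hrep (cls U f)).symm)
    simpa using h2.add h1
  refine ⟨{ toFun := L, map_add' := fun x y => ?_, map_smul' := fun c x => ?_ }, hL, ?_,
    fun x hx y => ?_⟩
  · obtain ⟨f, rfl⟩ := cls_surjective U x
    obtain ⟨g, rfl⟩ := cls_surjective U y
    rw [← map_add]
    exact tendsto_nhds_unique (hL (f + g)) (by simpa using (hL f).add (hL g))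
  · obtain ⟨f, rfl⟩ := cls_surjective U x
    rw [← map_smul, RingHom.id_apply]
    exact tendsto_nhds_unique (hL (c • f)) (by simpa using (hL f).const_mul c)
  · show L 1 = 1
    rw [← map_one (cls (A := F) U)]
    exact tendsto_nhds_unique (hL 1) (by simp [hψ1])
  · obtain ⟨f, rfl⟩ := cls_surjective U x
    obtain ⟨d, rfl⟩ := cls_surjective U y
    let f' : ℕ →ᵇ F := (Fintype.card G : ℂ)⁻¹ • ∑ g, bmap (β g) f
    have hf' : cls U f' = cls U f := by
      simp only [f', map_smul, map_sum, ← mapU_cls, hx, Finset.sum_const, Finset.card_univ,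
        ← Nat.cast_smul_eq_nsmul ℂ, smul_smul]
      rw [inv_mul_cancel₀ (Nat.cast_ne_zero.2 Fintype.card_ne_zero), one_smul]
    have hfix : ∀ n g, β g (f' n) = f' n := fun n g => by
      simp only [f', BoundedContinuousFunction.smul_apply, BoundedContinuousFunction.sum_apply,
        bmap_apply, map_smul, map_sum]
      congr 1
      exact Fintype.sum_equiv (Equiv.mulLeft g) _ _ fun h => (hβ g h _).symm
    show L (cls U f * cls U d) = L (cls U f) * L (cls U d)
    rw [← hf', ← map_mul]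
    refine tendsto_nhds_unique (hL (f' * d)) (Tendsto.congr (fun n => ?_) ((hL f').mul (hL d)))
    simp [hψm _ (hfix n)]

/-- A character of the commutative algebra generated by a commuting star-closed set, extending a
functional which is multiplicative on a class `P` of elements. -/
theorem exists_character {W : Type*} [CStarAlgebra W] {S : Set W}
    (hS : ∀ x ∈ S, ∀ y ∈ S, Commute x y) (hstar : ∀ x ∈ S, star x ∈ S) {Λ : W →ₗ[ℂ] ℂ}
    (h1 : Λ 1 = 1) {P : W → Prop} (hmul : ∀ x, P x → ∀ y, Λ (x * y) = Λ x * Λ y) :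
    ∃ (C : StarSubalgebra ℂ W) (θ : C →ₐ[ℂ] ℂ), S ⊆ C ∧ (∀ c, θ (star c) = star (θ c)) ∧
      (∀ c, ‖θ c‖ ≤ ‖(c : W)‖) ∧ ∀ c : C, P c → θ c = Λ c := by
  let C : StarSubalgebra ℂ W :=
    StarSubalgebra.centralizer ℂ (StarSubalgebra.centralizer ℂ S : Set W)
  have hZ : ∀ x ∈ S, x ∈ StarSubalgebra.centralizer ℂ S := fun x hx => by
    rw [StarSubalgebra.mem_centralizer_iff]
    exact fun y hy => ⟨hS y hy x hx, hS _ (hstar y hy) x hx⟩
  have hSC : S ⊆ C := fun x hx => by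
    rw [SetLike.mem_coe, StarSubalgebra.mem_centralizer_iff]
    intro z hz
    exact ⟨((StarSubalgebra.mem_centralizer_iff ℂ).1 hz _ hx).1.symm,
      ((StarSubalgebra.mem_centralizer_iff ℂ).1 (star_mem hz) _ hx).1.symm⟩
  have hCC : ∀ x y : C, x * y = y * x := fun x y => by
    refine Subtype.ext ?_
    have hy : (y : W) ∈ StarSubalgebra.centralizer ℂ S := by
      rw [StarSubalgebra.mem_centralizer_iff]
      exact fun a ha => ⟨((StarSubalgebra.mem_centralizer_iff ℂ).1 y.2 _ (hZ a ha)).1,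
        ((StarSubalgebra.mem_centralizer_iff ℂ).1 y.2 _ (hZ a ha)).2⟩
    exact (((StarSubalgebra.mem_centralizer_iff ℂ).1 x.2 _ hy).1).symm
  have : IsClosed (C : Set W) := by
    rw [StarSubalgebra.coe_centralizer]
    exact Set.isClosed_centralizer _
  letI instC : CStarAlgebra C := StarSubalgebra.cstarAlgebra C
  letI instCC : CommCStarAlgebra C := { instC with mul_comm := hCC }
  let J : Ideal C :=
    { carrier := {c | ∀ d : C, Λ ((d * c : C) : W) = 0}
      zero_mem' := fun d => by simp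
      add_mem' := fun {c c'} hc hc' d => by
        show Λ ((d : W) * ((c : W) + (c' : W))) = 0
        rw [mul_add, map_add]
        exact (congrArg₂ (· + ·) (hc d) (hc' d)).trans (add_zero 0)
      smul_mem' := fun a c hc d => by
        show Λ ((d : W) * ((a : W) * (c : W))) = 0
        rw [← mul_assoc]
        exact hc (d * a) }
  have hJ : J ≠ ⊤ := fun h => by
    have := ((Ideal.eq_top_iff_one J).1 h) 1
    simp [h1] at this
  obtain ⟨M, hM, hJM⟩ := J.exists_le_maximal hJ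
  let θ : C →ₐ[ℂ] ℂ := WeakDual.CharacterSpace.toAlgHom M.toCharacterSpace
  refine ⟨C, θ, hSC, map_star θ, fun c => ?_, fun c hc => ?_⟩
  · have : Nontrivial C := nontrivial_of_ne 1 0 fun h => by simpa using congrArg θ h
    exact spectrum.norm_le_norm_of_mem (𝕜 := ℂ) (A := C) (AlgHom.apply_mem_spectrum θ c)
  · have hmem : c - algebraMap ℂ C (Λ c) ∈ M := hJM fun d => by
      rw [mul_sub, hCC d c]
      show Λ ((c : W) * (d : W) - (d : W) * algebraMap ℂ W (Λ c)) = 0
      rw [Algebra.algebraMap_eq_smul_one, mul_smul_comm, mul_one, map_sub, hmul _ hc, map_smul,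
        smul_eq_mul, sub_self]
    have := M.toCharacterSpace_apply_eq_zero_of_mem hmem
    change θ (c - algebraMap ℂ C (Λ c)) = 0 at this
    rwa [map_sub, sub_eq_zero, AlgHom.commutes] at this

/-- The state on one copy. -/
theorem exists_state {β : G → (F →⋆ₐ[ℂ] F)} (hβ : ∀ g h x, β (g * h) x = β g (β h x))
    {ψ : F →ₗ[ℂ] ℂ} (hψ1 : ψ 1 = 1) (hψn : ∀ f, ‖ψ f‖ ≤ ‖f‖)
    (hψm : ∀ e, (∀ g, β g e = e) → ∀ f, ψ (e * f) = ψ e * ψ f) {s : Set F}
    {ρ : ℕ → (gen s →⋆ₐ[ℂ] F)} (hcomm : Pairwise fun i j => ∀ a b, Commute (ρ i a) (ρ j b))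
    (hnorm : ∀ i (a : gen s), ‖ρ i a‖ ≤ ‖(a : F)‖)
    (hequiv : ∀ i g (b c : gen s), (c : F) = β g b → ρ i c = β g (ρ i b))
    {I : ℕ → Finset ℕ} (hI : ∀ n, (I n).card = n + 1) :
    ∃ φ : gen s →ₗ[ℂ] ℂ, φ 1 = 1 ∧ (∀ a, φ (star a) = star (φ a)) ∧
      (∀ a, 0 ≤ φ (star a * a)) ∧
      ∀ (ι : Type) [Fintype ι] (b : ι → gen s) (e : G → ι ≃ ι),
        (∀ g u, (b (e g u) : F) = β g (b u)) →
        ∀ (k : ℕ) (ℓ : ℂ) (K : ℝ)
          (ha : ∀ (u : ι) i j, Commute (ρ i (b u)) (ρ j (b u))), 0 ≤ K →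
          (∀ n, ∀ P ∈ (I n).powersetCard k,
            ‖ψ (∑ u, pProd (fun i => ρ i (b u)) (ha u) P) - ℓ‖ ≤ K / (n + 1)) →
          ∑ u, φ (b u) ^ k = ℓ := by
  have hnt : Nontrivial F := nontrivial_of_ne 1 0 fun h => by simp [h] at hψ1
  obtain ⟨Λ, hΛ, hΛ1, hΛm⟩ := exists_limFun hβ (hyperfilter ℕ) hψ1 hψn hψm
  set σ := avgMap ρ hnorm I hI
  obtain ⟨C, θ, hσC, θ_star, θ_norm, θ_fix⟩ := exists_character (S := Set.range σ)
    (by rintro _ ⟨a, rfl⟩ _ ⟨b, rfl⟩; exact avgMap_commute ρ hnorm I hI hcomm a b)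
    (by rintro _ ⟨a, rfl⟩; exact ⟨star a, avgMap_star ρ hnorm I hI a⟩) hΛ1 hΛm
  let τ : gen s → C := fun a => ⟨σ a, hσC ⟨a, rfl⟩⟩
  let φ : gen s →ₗ[ℂ] ℂ :=
    { toFun := fun a => θ (τ a)
      map_add' := fun a b => by
        rw [← map_add]
        exact congrArg θ (Subtype.ext (map_add σ a b))
      map_smul' := fun c a => by
        rw [RingHom.id_apply, ← map_smul]
        exact congrArg θ (Subtype.ext (map_smul σ c a)) }
  have hφ : ∀ a, φ a = θ (τ a) := fun a => rfl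
  refine ⟨φ, ?_, fun a => ?_, fun a => ?_, ?_⟩
  · rw [hφ, ← map_one θ]
    exact congrArg θ (Subtype.ext (avgMap_one ρ hnorm I hI))
  · rw [hφ, hφ, ← θ_star]
    exact congrArg θ (Subtype.ext (avgMap_star ρ hnorm I hI a))
  · set R : ℝ := ‖(a : F)‖ ^ 2
    have h1 : ‖θ ((R : ℂ) • (1 : C) - τ (star a * a))‖ ≤ R :=
      (θ_norm _).trans (norm_sub_avgMap_le ρ hnorm I hI a)
    rw [map_sub, map_smul, map_one, smul_eq_mul, mul_one] at h1
    have h2 : star (θ (τ (star a * a))) = θ (τ (star a * a)) := by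
      rw [← θ_star]
      refine congrArg θ (Subtype.ext ?_)
      show star (σ (star a * a)) = σ (star a * a)
      rw [← avgMap_star, star_mul, star_star]
    rw [hφ, Complex.nonneg_iff]
    refine ⟨?_, ?_⟩
    · have := (Complex.abs_re_le_norm ((R : ℂ) - θ (τ (star a * a)))).trans h1
      rw [Complex.sub_re, Complex.ofReal_re, abs_le] at this
      linarith
    · rw [Complex.star_def, Complex.conj_eq_iff_im] at h2
      exact h2.symm
  · intro ι _ b e hb k ℓ K ha hK hP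
    let X : C := ∑ u, τ (b u) ^ k
    have hX : (X : P101.Ultrapower F (hyperfilter ℕ)) = ∑ u, σ (b u) ^ k := by
      simp [X, τ]
    have hfix : ∀ g, mapU (hyperfilter ℕ) (β g) (X : P101.Ultrapower F (hyperfilter ℕ)) = X := by
      intro g
      rw [hX, map_sum]
      refine Fintype.sum_equiv (e g) _ _ fun u => ?_
      rw [map_pow]
      exact congrArg (· ^ k) (mapU_avgMap ρ hnorm I hI fun i => hequiv i g _ _ (hb g u))
    simp only [hφ]
    rw [show ∑ u, θ (τ (b u)) ^ k = θ X by simp [X, map_sum, map_pow], θ_fix X hfix, hX]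
    have hcls : ∑ u, σ (b u) ^ k = cls (hyperfilter ℕ) (∑ u, avgSeq ρ hnorm I hI (b u) ^ k) := by
      simp only [map_sum, map_pow]
      rfl
    rw [hcls]
    refine tendsto_nhds_unique (hΛ _) (tendsto_iff_norm_sub_tendsto_zero.2 ?_)
    set R : ℝ := (∑ u, ‖(b u : F)‖)
    set D : ℝ := (Fintype.card ι : ℝ) * k ^ 2 * R ^ k + k ^ 2 * ‖ℓ‖ + K
    refine squeeze_zero (fun n => norm_nonneg _) (fun n => ?_)
      (by simpa using (tendsto_one_div_hyperfilter).const_mul D)
    have hb' := eval_bound ψ hψn (fun u i => ρ i (b u)) ha (M := R)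
      (fun u i => (hnorm i (b u)).trans
        (Finset.single_le_sum (f := fun u => ‖(b u : F)‖) (fun u _ => norm_nonneg _)
          (Finset.mem_univ u)))
      (Finset.card_pos.1 (by rw [hI n]; exact Nat.succ_pos n)) k ℓ (by positivity) (hP n)
    simp only [BoundedContinuousFunction.sum_apply, BoundedContinuousFunction.pow_apply,
      avgSeq_apply]
    refine hb'.trans_eq ?_
    rw [hI n]
    simp only [D]
    push_cast
    ring

end

end Vale.P095
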