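import Vale.Agent.P095.Finite.Gram
import Vale.Agent.P095.Finite.State
import Vale.Agent.P101.NoChar

/-!
# P095: a finite group cannot create characters

If `F` has equivariant commuting copies and its commutators generate it as an ideal, then no state
of `F` is multiplicative on the fixed points of a finite group of automorphisms.
-/

open scoped ComplexOrder Matrix
open Matrix

namespace Vale.P095

open Vale.P101

noncomputable section

variable {F : Type*} [CStarAlgebra F]

/-- A positive functional with `φ (z * z) = 0` for a self-adjoint `z` vanishes on `z * y`. -/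
theorem map_mul_eq_zero_left {B : Type*} [Ring B] [Algebra ℂ B] [StarRing B] [StarModule ℂ B]
    {φ : B →ₗ[ℂ] ℂ} (hstar : ∀ a, φ (star a) = star (φ a)) (hpos : ∀ a, 0 ≤ φ (star a * a))
    {z : B} (hz : IsSelfAdjoint z) (h : φ (z * z) = 0) (y : B) :
    φ (z * y) = 0 := by
  set w : ℂ := φ (z * y)
  have hw : φ (star y * z) = star w := by
    rw [← hstar, star_mul, hz.star_eq]
  have key : ∀ r : ℝ, 2 * r * Complex.normSq w ≤ (φ (star y * y)).re := by
    intro r
    set t : ℂ := -((r : ℂ) * w)
    have e : star (y + t • z) * (y + t • z) =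
        star y * y + t • (star y * z) + star t • (z * y) + (star t * t) • (z * z) := by
      rw [star_add, star_smul, hz.star_eq]
      simp only [add_mul, mul_add, smul_mul_assoc, mul_smul_comm, smul_add, smul_smul]
      rw [mul_comm t (star t)]
      abel
    have h0 := hpos (y + t • z)
    rw [e, map_add, map_add, map_add, map_smul, map_smul, map_smul, hw, h, smul_zero, add_zero,
      Complex.nonneg_iff] at h0
    have h1 := h0.1
    simp only [t, smul_eq_mul, Complex.add_re, Complex.star_def, Complex.mul_re, Complex.neg_re,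
      Complex.neg_im, Complex.mul_im, Complex.ofReal_re, Complex.ofReal_im, Complex.conj_re,
      Complex.conj_im, map_neg, map_mul, zero_mul, sub_zero, add_zero] at h1
    rw [Complex.normSq_apply]
    nlinarith [h1]
  have hw0 : w = 0 := by
    rw [← Complex.normSq_eq_zero]
    by_contra hne
    have hpos' : 0 < Complex.normSq w := lt_of_le_of_ne (Complex.normSq_nonneg w) (Ne.symm hne)
    have := key (((φ (star y * y)).re + 1) / (2 * Complex.normSq w))
    rw [show 2 * (((φ (star y * y)).re + 1) / (2 * Complex.normSq w)) * Complex.normSq w =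
      (φ (star y * y)).re + 1 by field_simp] at this
    linarith
  exact hw0

/-- A positive functional with `φ (z * z) = 0` for a self-adjoint `z` vanishes on both sides. -/
theorem map_mul_eq_zero {B : Type*} [Ring B] [Algebra ℂ B] [StarRing B] [StarModule ℂ B]
    {φ : B →ₗ[ℂ] ℂ} (hstar : ∀ a, φ (star a) = star (φ a)) (hpos : ∀ a, 0 ≤ φ (star a * a))
    {z : B} (hz : IsSelfAdjoint z) (h : φ (z * z) = 0) (y : B) :
    φ (z * y) = 0 ∧ φ (y * z) = 0 := by
  refine ⟨map_mul_eq_zero_left hstar hpos hz h y, ?_⟩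
  have := hstar (z * star y)
  rw [map_mul_eq_zero_left hstar hpos hz h (star y), star_zero, star_mul, star_star,
    hz.star_eq] at this
  exact this

/-- Products of pointwise products. -/
theorem pProd_mul [Nontrivial F] {a b : ℕ → F} (ha : ∀ i j, Commute (a i) (a j))
    (hb : ∀ i j, Commute (b i) (b j)) (hba : ∀ i j, i ≠ j → Commute (b i) (a j))
    (hab : ∀ i j, Commute (a i * b i) (a j * b j)) (P : Finset ℕ) :
    pProd (fun i => a i * b i) hab P = pProd a ha P * pProd b hb P := by
  induction P using Finset.induction_on with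
  | empty => rw [pProd_empty, pProd_empty, pProd_empty, one_mul]
  | insert i P hi ih =>
    have hc : Commute (b i) (pProd a ha P) :=
      Finset.noncommProd_commute _ _ _ _ fun j hj => hba i j fun h => hi (h ▸ hj)
    rw [pProd_insert hab hi, pProd_insert ha hi, pProd_insert hb hi, ih, mul_assoc (a i) (b i),
      ← mul_assoc (b i), hc.eq]
    noncomm_ring

/-- Homomorphisms commute with the products over index sets. -/
theorem map_pProd [Nontrivial F] (f : F →⋆ₐ[ℂ] F) {a b : ℕ → F}
    (ha : ∀ i j, Commute (a i) (a j)) (hb : ∀ i j, Commute (b i) (b j)) (h : ∀ i, f (a i) = b i)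
    (P : Finset ℕ) : f (pProd a ha P) = pProd b hb P := by
  induction P using Finset.induction_on with
  | empty => rw [pProd_empty, pProd_empty, map_one]
  | insert i P hi ih => rw [pProd_insert ha hi, pProd_insert hb hi, map_mul, h, ih]

theorem mem_gen_of_parts {s : Set F} {u : F} (h1 : (realPart u : F) ∈ s)
    (h2 : (imaginaryPart u : F) ∈ s) : u ∈ gen s := by
  rw [← realPart_add_I_smul_imaginaryPart u]
  exact add_mem (StarAlgebra.subset_adjoin ℂ s h1)
    (SMulMemClass.smul_mem Complex.I (StarAlgebra.subset_adjoin ℂ s h2))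

variable {G : Type} [Group G] [Fintype G]

/-- No state is multiplicative on the fixed points. -/
theorem not_multiplicative_fixed {β : G → (F →⋆ₐ[ℂ] F)} (hβ1 : ∀ x, β 1 x = x)
    (hβ : ∀ g h x, β (g * h) x = β g (β h x))
    (hcopy : ∀ s t : Set F, s.Finite → t.Finite → (∀ g, ∀ b ∈ s, β g b ∈ s) →
      ∃ ρ : gen s →⋆ₐ[ℂ] F, (∀ b, ∀ c ∈ t, Commute (ρ b) c) ∧ (∀ b, ‖ρ b‖ ≤ ‖(b : F)‖) ∧
        ∀ g (b c : gen s), (c : F) = β g b → ρ c = β g (ρ b))
    (hfull : Full (commSet F)) {ψ : F →ₗ[ℂ] ℂ} (hψ1 : ψ 1 = 1) (hψn : ∀ f, ‖ψ f‖ ≤ ‖f‖)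
    (hψm : ∀ e, (∀ g, β g e = e) → ∀ f, ψ (e * f) = ψ e * ψ f) : False := by
  classical
  have hnt : Nontrivial F := nontrivial_of_ne 1 0 fun h => by simp [h] at hψ1
  obtain ⟨n, u, c, v, hc, hsum⟩ := hfull.exists_sum
  choose x y hx hy hxy using hc
  let s₀ : Set F := Set.range x ∪ Set.range y ∪ Set.range (fun t => (realPart (u t) : F)) ∪
    Set.range (fun t => (imaginaryPart (u t) : F)) ∪ Set.range (fun t => (realPart (v t) : F)) ∪
    Set.range (fun t => (imaginaryPart (v t) : F))
  let s : Set F := ⋃ g, β g '' s₀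
  have hs : s.Finite := Set.finite_iUnion fun g => by
    refine Set.Finite.image _ ?_
    simp [s₀, Set.finite_range]
  have hs₀ : s₀ ⊆ s := fun a ha => Set.mem_iUnion.2 ⟨1, a, ha, hβ1 a⟩
  have hsa : ∀ a ∈ s, IsSelfAdjoint a := by
    intro a ha
    obtain ⟨g, b, hb, rfl⟩ := Set.mem_iUnion.1 ha
    refine IsSelfAdjoint.map ?_ (β g)
    simp only [s₀, Set.mem_union, Set.mem_range] at hb
    rcases hb with ((((⟨t, rfl⟩ | ⟨t, rfl⟩) | ⟨t, rfl⟩) | ⟨t, rfl⟩) | ⟨t, rfl⟩) | ⟨t, rfl⟩
    · exact hx t
    · exact hy t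
    · exact (realPart (u t)).2
    · exact (imaginaryPart (u t)).2
    · exact (realPart (v t)).2
    · exact (imaginaryPart (v t)).2
  have hst : ∀ g, ∀ a ∈ s, β g a ∈ s := by
    intro g a ha
    obtain ⟨h, b, hb, rfl⟩ := Set.mem_iUnion.1 ha
    exact Set.mem_iUnion.2 ⟨g * h, b, hb, hβ g h b⟩
  have hgen : ∀ g, ∀ a ∈ gen s, β g a ∈ gen s := by
    intro g a ha
    have : β g a ∈ (gen s).map (β g) := ⟨a, ha, rfl⟩
    rw [StarAlgHom.map_adjoin] at this
    refine StarAlgebra.adjoin_le ?_ this
    rintro _ ⟨b, hb, rfl⟩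
    exact StarAlgebra.subset_adjoin ℂ s (hst g b hb)
  let γ : G → gen s → gen s := fun g a => ⟨β g a, hgen g a a.2⟩
  -- infinitely many pairwise commuting equivariant copies
  let pre : Set (gen s) := {b | (b : F) ∈ s}
  have hpre : pre.Finite := hs.preimage Subtype.val_injective.injOn
  choose next hnext using fun t : Finset F => hcopy s ↑t hs t.finite_toSet hst
  let T : ℕ → Finset F := fun m =>
    Nat.rec ∅ (fun _ t => t ∪ hpre.toFinset.image (fun b => next t b)) m
  have hTs : ∀ i, ∀ b ∈ pre, next (T i) b ∈ T (i + 1) := fun i b hb =>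
    Finset.mem_union_right _ (Finset.mem_image.2 ⟨b, hpre.mem_toFinset.2 hb, rfl⟩)
  have hTmono : ∀ i j, i ≤ j → T i ⊆ T j := fun i j hij => by
    induction hij with
    | refl => exact subset_refl _
    | step _ ih => exact ih.trans Finset.subset_union_left
  let ρ : ℕ → (gen s →⋆ₐ[ℂ] F) := fun i => next (T i)
  have hlt : ∀ i j, i < j → ∀ a b, Commute (ρ j a) (ρ i b) := fun i j hij a b =>
    commute_range_of_gen (ρ i) (fun d hd => by
      have h1 := (hnext (T j)).1 a _ (Finset.mem_coe.2 (hTmono _ _ hij (hTs i d hd)))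
      refine ⟨h1, ?_⟩
      rwa [← map_star, show star d = d from Subtype.ext (hsa _ hd).star_eq]) b
  have hcomm : Pairwise fun i j => ∀ a b, Commute (ρ i a) (ρ j b) := fun i j hij a b => by
    rcases lt_or_gt_of_ne hij with h | h
    · exact (hlt i j h b a).symm
    · exact hlt j i h a b
  have hnorm : ∀ i (a : gen s), ‖ρ i a‖ ≤ ‖(a : F)‖ := fun i => (hnext (T i)).2.1
  have hequiv : ∀ i g (b c : gen s), (c : F) = β g b → ρ i c = β g (ρ i b) :=
    fun i => (hnext (T i)).2.2
  have hca : ∀ (a : gen s) i j, Commute (ρ i a) (ρ j a) := fun a i j => by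
    rcases eq_or_ne i j with rfl | h
    · exact Commute.refl _
    · exact hcomm h a a
  -- the placements
  have : Fintype ↥s := hs.fintype
  let el : ↥s → gen s := fun a => ⟨a, StarAlgebra.subset_adjoin ℂ s a.2⟩
  let V : ↥s → Finset ℕ → F := fun a P =>
    ∑ g, pProd (fun i => ρ i (γ g (el a))) (hca _) P
  let R : ℝ := ∑ a : ↥s, ‖(a : F)‖
  let B : ℕ → ℝ := fun k => Fintype.card G * R ^ k
  have hR : ∀ (a : ↥s) g i, ‖ρ i (γ g (el a))‖ ≤ R := fun a g i =>
    (hnorm i _).trans ((NonUnitalStarAlgHom.norm_apply_le (β g) (a : F)).trans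
      (Finset.single_le_sum (f := fun a : ↥s => ‖(a : F)‖) (fun _ _ => norm_nonneg _)
        (Finset.mem_univ a)))
  have hVn : ∀ a P, ‖ψ (V a P)‖ ≤ B P.card := fun a P =>
    (hψn _).trans ((norm_sum_le _ _).trans ((Finset.sum_le_sum fun g _ =>
      norm_pProd_le (hca _) (hR a g) P).trans_eq (by simp [B])))
  obtain ⟨L, hL⟩ := exists_spread hVn
  choose I hI hIV using fun m : ℕ => hL (m + 1) (1 / ((m : ℝ) + 1)) (by positivity)
  obtain ⟨φ, φ1, φstar, φpos, hpow⟩ := exists_state hβ hψ1 hψn hψm hcomm hnorm hequiv hI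
  have hVfix : ∀ a P g, β g (V a P) = V a P := fun a P g => by
    simp only [V, map_sum]
    refine Fintype.sum_equiv (Equiv.mulLeft g) _ _ fun h =>
      map_pProd (β g) (hca _) (hca _) (fun i => (hequiv i g _ _ ?_).symm) P
    exact hβ g h _
  -- the generators are in the multiplicative domain
  have hker : ∀ a : ↥s, φ (el a * el a) = φ (el a) * φ (el a) := by
    intro a
    let cf : G → ℂ := fun g => φ (γ g (el a))
    let K : Matrix G G ℂ := fun g h => φ (γ g (el a) * γ h (el a)) - cf g * cf h
    have hsa' : ∀ g, star (γ g (el a)) = γ g (el a) := fun g =>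
      Subtype.ext (hsa _ (hst g _ a.2)).star_eq
    have hcf : ∀ g, star (cf g) = cf g := fun g => by
      simp only [cf]
      rw [← φstar, hsa']
    have hP1 : ∀ k, ∑ g, cf g ^ k = L a k := fun k =>
      hpow G (fun g => γ g (el a)) Equiv.mulLeft (fun g h => hβ g h _) k (L a k) 1
        (fun g => hca _) zero_le_one fun m P hP => by
          rw [Finset.mem_powersetCard] at hP
          have := hIV m P hP.1 a
          rwa [hP.2] at this
    have hP2 : ∀ k, ∑ g, ∑ h, φ (γ g (el a) * γ h (el a)) ^ k = L a k ^ 2 := fun k => by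
      rw [← Fintype.sum_prod_type']
      refine hpow (G × G) (fun p => γ p.1 (el a) * γ p.2 (el a))
        (fun g => (Equiv.mulLeft g).prodCongr (Equiv.mulLeft g)) (fun g p => ?_) k _
        (B k + ‖L a k‖) (fun p => hca _) (by positivity) fun m P hP => ?_
      · show β (g * p.1) _ * β (g * p.2) _ = β g (β p.1 _ * β p.2 _)
        rw [hβ, hβ, map_mul]
      · rw [Finset.mem_powersetCard] at hP
        have hd : ‖ψ (V a P) - L a k‖ ≤ 1 / ((m : ℝ) + 1) := hP.2 ▸ hIV m P hP.1 a
        have e : ∑ p : G × G, pProd (fun i => ρ i (γ p.1 (el a) * γ p.2 (el a))) (hca _) P =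
            V a P * V a P := by
          rw [Finset.sum_mul_sum, Fintype.sum_prod_type]
          refine Finset.sum_congr rfl fun g _ => Finset.sum_congr rfl fun h _ => ?_
          simp only [map_mul]
          exact pProd_mul (hca _) (hca _) (fun i j hij => hcomm hij _ _) _ P
        rw [e, hψm _ (hVfix a P)]
        have e' : ψ (V a P) * ψ (V a P) - L a k ^ 2 =
            (ψ (V a P) - L a k) * (ψ (V a P) + L a k) := by ring
        rw [e', norm_mul, div_eq_mul_one_div, mul_comm (B k + ‖L a k‖)]
        exact mul_le_mul hd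
          ((norm_add_le _ _).trans (add_le_add (hP.2 ▸ hVn a P) le_rfl))
          (norm_nonneg _) (by positivity)
    have hherm : K.IsHermitian := Matrix.IsHermitian.ext fun g h => by
      show star (φ (γ h (el a) * γ g (el a)) - cf h * cf g) =
        φ (γ g (el a) * γ h (el a)) - cf g * cf h
      rw [star_sub, star_mul', hcf, hcf, ← φstar, star_mul, hsa', hsa', mul_comm (cf h)]
    have hpsd : K.PosSemidef := by
      refine Matrix.PosSemidef.of_dotProduct_mulVec_nonneg hherm fun w => ?_
      let z : G → gen s := fun g => γ g (el a) - cf g • 1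
      have hzK : ∀ g h, φ (z g * z h) = K g h := fun g h => by
        show _ = φ (γ g (el a) * γ h (el a)) - cf g * cf h
        simp only [z, sub_mul, mul_sub, smul_mul_assoc, mul_smul_comm, one_mul, mul_one, map_sub,
          map_smul, φ1, smul_eq_mul, cf]
        ring
      have hzs : ∀ g, star (z g) = z g := fun g => by
        simp only [z, star_sub, star_smul, star_one, hsa', hcf]
      refine (φpos (∑ g, w g • z g)).trans_eq ?_
      rw [star_sum, Finset.sum_mul_sum, map_sum]
      simp only [dotProduct, Matrix.mulVec, Pi.star_apply, Finset.mul_sum, map_sum]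
      refine Finset.sum_congr rfl fun g _ => Finset.sum_congr rfl fun h _ => ?_
      rw [star_smul, hzs, smul_mul_smul_comm, map_smul, hzK, smul_eq_mul]
      ring
    have hz : K = 0 := eq_zero_of_powerSums hcf hpsd fun k => by
      simp only [K, add_sub_cancel]
      rw [hP1, hP2]
    have h11 : φ (γ 1 (el a) * γ 1 (el a)) - cf 1 * cf 1 = 0 := congrFun (congrFun hz 1) 1
    have e : γ 1 (el a) = el a := Subtype.ext (hβ1 _)
    simp only [cf, e] at h11
    exact sub_eq_zero.1 h11
  have hmul : ∀ b y : gen s, φ (b * y) = φ b * φ y ∧ φ (y * b) = φ y * φ b := by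
    rintro ⟨b, hb⟩
    induction hb using StarAlgebra.adjoin_induction with
    | mem a ha =>
      intro y
      set z : gen s := el ⟨a, ha⟩ - φ (el ⟨a, ha⟩) • 1
      have hzs : IsSelfAdjoint z := by
        have h1 : star (el ⟨a, ha⟩) = el ⟨a, ha⟩ := Subtype.ext (hsa a ha).star_eq
        have h2 : star (φ (el ⟨a, ha⟩)) = φ (el ⟨a, ha⟩) := by rw [← φstar, h1]
        show star z = z
        simp only [z, star_sub, star_smul, star_one, h1, h2]
      have hz0 : φ (z * z) = 0 := by
        simp only [z, sub_mul, mul_sub, smul_mul_assoc, mul_smul_comm, one_mul, mul_one, map_sub,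
          map_smul, φ1, smul_eq_mul, hker]
        ring
      obtain ⟨h1, h2⟩ := map_mul_eq_zero φstar φpos hzs hz0 y
      simp only [z, sub_mul, mul_sub, smul_mul_assoc, mul_smul_comm, one_mul, mul_one, map_sub,
        map_smul, smul_eq_mul, sub_eq_zero] at h1 h2
      exact ⟨h1, h2.trans (mul_comm _ _)⟩
    | algebraMap r =>
      intro y
      rw [show (⟨_, _⟩ : gen s) = algebraMap ℂ (gen s) r from rfl, ← Algebra.commutes,
        Algebra.algebraMap_eq_smul_one, smul_mul_assoc, one_mul, map_smul, map_smul, φ1]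
      simp only [smul_eq_mul]
      exact ⟨by ring, by ring⟩
    | add p q hp hq ihp ihq =>
      intro y
      rw [show (⟨p + q, _⟩ : gen s) = ⟨p, hp⟩ + ⟨q, hq⟩ from rfl, add_mul, mul_add, map_add,
        map_add, map_add, (ihp y).1, (ihp y).2, (ihq y).1, (ihq y).2]
      exact ⟨by ring, by ring⟩
    | mul p q hp hq ihp ihq =>
      intro y
      rw [show (⟨p * q, _⟩ : gen s) = ⟨p, hp⟩ * ⟨q, hq⟩ from rfl]
      exact ⟨by rw [mul_assoc, (ihp _).1, (ihq y).1, (ihp _).1]; ring,
        by rw [← mul_assoc, (ihq _).2, (ihp y).2, (ihp _).1]; ring⟩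
    | star p hp ih =>
      intro y
      rw [show (⟨star p, _⟩ : gen s) = star ⟨p, hp⟩ from rfl]
      have h1 := congrArg star (ih (star y)).2
      have h2 := congrArg star (ih (star y)).1
      rw [← φstar, star_mul, star_star] at h1 h2
      rw [h1, h2, φstar, φstar, star_mul', star_mul', star_star]
      exact ⟨by ring, by ring⟩
  -- the contradiction
  have hmemu : ∀ t, u t ∈ gen s := fun t =>
    mem_gen_of_parts (hs₀ (by simp [s₀])) (hs₀ (by simp [s₀]))
  have hmemv : ∀ t, v t ∈ gen s := fun t =>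
    mem_gen_of_parts (hs₀ (by simp [s₀])) (hs₀ (by simp [s₀]))
  let U' : Fin n → gen s := fun t => ⟨u t, hmemu t⟩
  let V' : Fin n → gen s := fun t => ⟨v t, hmemv t⟩
  let X' : Fin n → gen s := fun t => ⟨x t, StarAlgebra.subset_adjoin ℂ s (hs₀ (by simp [s₀]))⟩
  let Y' : Fin n → gen s := fun t => ⟨y t, StarAlgebra.subset_adjoin ℂ s (hs₀ (by simp [s₀]))⟩
  have h1 : (1 : gen s) = ∑ t, U' t * (X' t * Y' t - Y' t * X' t) * V' t := by
    apply Subtype.ext
    simp [U', V', X', Y', ← hsum, hxy]
  have h2 := congrArg φ h1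
  rw [φ1, map_sum, Finset.sum_eq_zero (fun t _ => by
    rw [(hmul _ _).1, (hmul _ _).1, map_sub, (hmul (X' t) (Y' t)).1, (hmul (Y' t) (X' t)).1,
      mul_comm (φ (Y' t)), sub_self, mul_zero, zero_mul])] at h2
  exact one_ne_zero h2

end

end Vale.P095
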