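import Vale.Agent.P101.Central

/-!
# P095: functoriality of the ultrapower and the fixed point algebra of an action
-/

open scoped BoundedContinuousFunction
open Filter Topology

namespace Vale.P095

open Vale.P101

noncomputable section

variable {A B : Type*} [CStarAlgebra A] [CStarAlgebra B]

/-- A star homomorphism applied termwise to bounded sequences. -/
def bmap (f : A →⋆ₐ[ℂ] B) : (ℕ →ᵇ A) →⋆ₐ[ℂ] (ℕ →ᵇ B) where
  toFun a := BoundedContinuousFunction.ofNormedAddCommGroup (fun n => f (a n))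
    continuous_of_discreteTopology ‖a‖ fun n =>
      (NonUnitalStarAlgHom.norm_apply_le f (a n)).trans (a.norm_coe_le_norm n)
  map_one' := by ext; simp
  map_mul' a b := by ext; simp
  map_zero' := by ext; simp
  map_add' a b := by ext; simp
  commutes' c := by
    ext n
    simp only [BoundedContinuousFunction.coe_ofNormedAddCommGroup]
    exact AlgHomClass.commutes f c
  map_star' a := by ext; simp [map_star]

theorem bmap_apply (f : A →⋆ₐ[ℂ] B) (a : ℕ →ᵇ A) (n : ℕ) : bmap f a n = f (a n) := rfl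

variable (ω : Ultrafilter ℕ)

theorem bmap_mem_nullSeq (f : A →⋆ₐ[ℂ] B) {a : ℕ →ᵇ A} (ha : a ∈ NullSeq A ω) :
    bmap f a ∈ NullSeq B ω :=
  squeeze_zero (fun n => norm_nonneg _) (fun n => NonUnitalStarAlgHom.norm_apply_le f (a n))
    (mem_nullSeq.1 ha)

/-- The map induced on ultrapowers. -/
def mapU (f : A →⋆ₐ[ℂ] B) : Ultrapower A ω →⋆ₐ[ℂ] Ultrapower B ω :=
  { Ideal.Quotient.liftₐ (NullSeq A ω) ((cls ω).comp (bmap f).toAlgHom)
      (fun _ ha => Ideal.Quotient.eq_zero_iff_mem.2 (bmap_mem_nullSeq ω f ha)) with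
    map_star' := fun x => by
      obtain ⟨a, rfl⟩ := cls_surjective ω x
      show cls ω (bmap f (star a)) = star (cls ω (bmap f a))
      rw [map_star, star_cls] }

theorem mapU_cls (f : A →⋆ₐ[ℂ] B) (a : ℕ →ᵇ A) : mapU ω f (cls ω a) = cls ω (bmap f a) := rfl

theorem mapU_constSeq (f : A →⋆ₐ[ℂ] B) (a : A) :
    mapU ω f (constSeq ω a) = constSeq ω (f a) := by
  rw [mapU_cls]
  congr 1

theorem mapU_comp {C : Type*} [CStarAlgebra C] (f : B →⋆ₐ[ℂ] C) (g : A →⋆ₐ[ℂ] B)
    (x : Ultrapower A ω) : mapU ω f (mapU ω g x) = mapU ω (f.comp g) x := by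
  obtain ⟨a, rfl⟩ := cls_surjective ω x
  rw [mapU_cls, mapU_cls, mapU_cls]
  congr 1

theorem mapU_id (x : Ultrapower A ω) : mapU ω (StarAlgHom.id ℂ A) x = x := by
  obtain ⟨a, rfl⟩ := cls_surjective ω x
  rw [mapU_cls]
  congr 1

variable {G : Type*} [Group G] (α : G →* (A ≃⋆ₐ[ℂ] A))

/-- The action induced by `α` on the ultrapower: `α g` termwise. -/
def actU (g : G) : Ultrapower A ω →⋆ₐ[ℂ] Ultrapower A ω :=
  mapU ω (StarAlgHomClass.toStarAlgHom (α g))

theorem actU_cls (g : G) (a : ℕ →ᵇ A) :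
    actU ω α g (cls ω a) = cls ω (bmap (StarAlgHomClass.toStarAlgHom (α g)) a) := rfl

theorem actU_one (x : Ultrapower A ω) : actU ω α 1 x = x := by
  conv_rhs => rw [← mapU_id ω x]
  rw [actU]
  congr 2
  ext a
  simp

theorem actU_mul (g h : G) (x : Ultrapower A ω) :
    actU ω α (g * h) x = actU ω α g (actU ω α h x) := by
  rw [actU, actU, actU, mapU_comp]
  congr 2
  ext a
  simp

theorem actU_mem_central (g : G) {x : Ultrapower A ω} (hx : x ∈ Central A ω) :
    actU ω α g x ∈ Central A ω := by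
  rw [mem_central] at hx ⊢
  intro a
  have := (hx ((α g).symm a)).map (actU ω α g)
  rwa [actU, mapU_constSeq,
    show StarAlgHomClass.toStarAlgHom (α g) ((α g).symm a) = a from (α g).apply_symm_apply a] at this

theorem continuous_actU (g : G) : Continuous (actU ω α g) :=
  AddMonoidHomClass.continuous_of_bound (actU ω α g) 1 fun x => by
    rw [one_mul]
    exact NonUnitalStarAlgHom.norm_apply_le (actU ω α g) x

/-- The action induced by `α` on the central sequence algebra. -/
def actC (g : G) : Central A ω →⋆ₐ[ℂ] Central A ω :=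
  ((actU ω α g).comp (Central A ω).subtype).codRestrict (Central A ω)
    fun x => actU_mem_central ω α g x.2

theorem actC_val (g : G) (x : Central A ω) :
    (actC ω α g x : Ultrapower A ω) = actU ω α g (x : Ultrapower A ω) := rfl

theorem actC_one (x : Central A ω) : actC ω α 1 x = x := Subtype.ext (actU_one ω α _)

theorem actC_mul (g h : G) (x : Central A ω) :
    actC ω α (g * h) x = actC ω α g (actC ω α h x) := Subtype.ext (actU_mul ω α g h _)

/-- The fixed point algebra `F_ω(A)^α`. -/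
def Fixed : StarSubalgebra ℂ (Ultrapower A ω) where
  carrier := {x | x ∈ Central A ω ∧ ∀ g : G, actU ω α g x = x}
  mul_mem' {x y} hx hy := ⟨mul_mem hx.1 hy.1, fun g => by rw [map_mul, hx.2 g, hy.2 g]⟩
  add_mem' {x y} hx hy := ⟨add_mem hx.1 hy.1, fun g => by rw [map_add, hx.2 g, hy.2 g]⟩
  algebraMap_mem' c := ⟨algebraMap_mem _ c, fun g => AlgHomClass.commutes (actU ω α g) c⟩
  star_mem' {x} hx := ⟨star_mem hx.1, fun g => by rw [map_star, hx.2 g]⟩

theorem mem_fixed {x : Ultrapower A ω} :
    x ∈ Fixed ω α ↔ x ∈ Central A ω ∧ ∀ g : G, actU ω α g x = x := Iff.rfl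

instance : IsClosed (Fixed ω α : Set (Ultrapower A ω)) := by
  have : (Fixed ω α : Set (Ultrapower A ω)) =
      (Central A ω : Set (Ultrapower A ω)) ∩ ⋂ g : G, {x | actU ω α g x = x} := by
    ext x
    simp [mem_fixed]
  rw [this]
  exact IsClosed.inter inferInstance
    (isClosed_iInter fun g => isClosed_eq (continuous_actU ω α g) continuous_id)

noncomputable instance : CStarAlgebra (Fixed ω α) := StarSubalgebra.cstarAlgebra _

end

end Vale.P095
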