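import Mathlib

/-!
# P095: power sums kill a positive semidefinite covariance matrix
-/

open scoped ComplexOrder Matrix
open Matrix Polynomial

namespace Vale.P095

variable {ι : Type*} [Fintype ι]

theorem posSemidef_map_pow {K : Matrix ι ι ℂ} (hK : K.PosSemidef) :
    ∀ j : ℕ, (K.map (· ^ (j + 1))).PosSemidef
  | 0 => by
    have : K.map (· ^ (0 + 1)) = K := by ext; simp
    rwa [this]
  | j + 1 => by
    have : K.map (· ^ (j + 1 + 1)) = (K.map (· ^ (j + 1))).hadamard K := by
      ext a b
      simp [Matrix.hadamard, pow_succ]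
    rw [this]
    exact (posSemidef_map_pow hK j).hadamard hK

/-- If the power sums of `c a * c b + K a b` are the squares of those of `c`, then `K = 0`. -/
theorem eq_zero_of_powerSums {c : ι → ℂ} (hc : ∀ a, star (c a) = c a) {K : Matrix ι ι ℂ}
    (hK : K.PosSemidef)
    (h : ∀ k : ℕ, ∑ a, ∑ b, (c a * c b + K a b) ^ k = (∑ a, c a ^ k) ^ 2) : K = 0 := by
  classical
  -- the sums of the powers of the entries vanish
  have key : ∀ j : ℕ, ∑ a, ∑ b, K a b ^ (j + 1) = 0 := by
    intro j
    let T : ℕ → ℂ := fun i =>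
      ((j + 1).choose i : ℂ) * ∑ a, ∑ b, K a b ^ i * (c a * c b) ^ (j + 1 - i)
    have hexp : ∑ a, ∑ b, (c a * c b + K a b) ^ (j + 1) = ∑ i ∈ Finset.range (j + 2), T i := by
      calc ∑ a, ∑ b, (c a * c b + K a b) ^ (j + 1)
          = ∑ a, ∑ b, ∑ i ∈ Finset.range (j + 2),
              K a b ^ i * (c a * c b) ^ (j + 1 - i) * ((j + 1).choose i : ℂ) := by
            refine Finset.sum_congr rfl fun a _ => Finset.sum_congr rfl fun b _ => ?_
            rw [add_comm, add_pow]
        _ = _ := by
            rw [Finset.sum_congr rfl fun a _ => Finset.sum_comm, Finset.sum_comm]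
            refine Finset.sum_congr rfl fun i _ => ?_
            simp only [T, Finset.mul_sum]
            exact Finset.sum_congr rfl fun a _ => Finset.sum_congr rfl fun b _ => by ring
    have h0 : T 0 = (∑ a, c a ^ (j + 1)) ^ 2 := by
      simp [T, mul_pow, sq, Finset.sum_mul_sum]
    have hnn : ∀ i, 0 ≤ T (i + 1) := by
      intro i
      refine mul_nonneg (Nat.cast_nonneg _) ?_
      have := (posSemidef_map_pow hK i).dotProduct_mulVec_nonneg (fun a => c a ^ (j + 1 - (i + 1)))
      refine this.trans_eq ?_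
      simp only [dotProduct, mulVec, Pi.star_apply, star_pow, hc, Matrix.map_apply, Finset.mul_sum]
      exact Finset.sum_congr rfl fun a _ => Finset.sum_congr rfl fun b _ => by ring
    have hsum : ∑ i ∈ Finset.range (j + 1), T (i + 1) = 0 := by
      have := (h (j + 1)).symm.trans hexp
      rw [Finset.sum_range_succ', h0] at this
      exact add_eq_right.1 this.symm
    have := (Finset.sum_eq_zero_iff_of_nonneg fun i _ => hnn i).1 hsum j
      (Finset.self_mem_range_succ j)
    simpa [T] using this
  -- a polynomial vanishing at all values but one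
  ext a b
  by_contra hne
  set d := K a b
  have hd : d ≠ 0 := hne
  let S : Finset ℂ := (Finset.univ.image fun p : ι × ι => K p.1 p.2).erase d
  let p : ℂ[X] := X * ∏ w ∈ S, (X - C w)
  have hp0 : p.coeff 0 = 0 := by simp [p]
  have hpd : p.eval d ≠ 0 := by
    simp only [p, eval_mul, eval_X, eval_prod, eval_sub, eval_C]
    exact mul_ne_zero hd (Finset.prod_ne_zero_iff.2 fun w hw =>
      sub_ne_zero.2 (Finset.ne_of_mem_erase hw).symm)
  have hzero : ∑ q : ι × ι, p.eval (K q.1 q.2) = 0 := by
    simp only [eval_eq_sum_range]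
    rw [Finset.sum_comm]
    refine Finset.sum_eq_zero fun i _ => ?_
    rw [← Finset.mul_sum]
    rcases i with _ | i
    · simp [hp0]
    · rw [Fintype.sum_prod_type, key i, mul_zero]
  have hsplit : ∑ q : ι × ι, p.eval (K q.1 q.2) =
      ((Finset.univ.filter fun q : ι × ι => K q.1 q.2 = d).card : ℂ) * p.eval d := by
    rw [← Finset.sum_filter_add_sum_filter_not Finset.univ (fun q : ι × ι => K q.1 q.2 = d)]
    rw [Finset.sum_eq_zero (s := Finset.univ.filter fun q : ι × ι => ¬K q.1 q.2 = d), add_zero,
      Finset.sum_congr rfl (fun q hq => by rw [(Finset.mem_filter.1 hq).2]), Finset.sum_const,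
      nsmul_eq_mul]
    intro q hq
    have hm : K q.1 q.2 ∈ S :=
      Finset.mem_erase.2 ⟨(Finset.mem_filter.1 hq).2, Finset.mem_image_of_mem _ (Finset.mem_univ q)⟩
    simp only [p, eval_mul, eval_X, eval_prod, eval_sub, eval_C]
    exact mul_eq_zero_of_right _ (Finset.prod_eq_zero hm (sub_self _))
  rw [hzero, eq_comm, mul_eq_zero, Nat.cast_eq_zero, Finset.card_eq_zero] at hsplit
  refine hsplit.elim (fun h' => ?_) hpd
  exact Finset.eq_empty_iff_forall_notMem.1 h' (a, b) (by simp [d])

end Vale.P095
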